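/-
Row 242 (S0480), package LM = local monomialisation in the analytic category.   Owner: helper119.

Base space `Cn n = Fin n → ℂ` (sup norm, `Metric.ball 0 r` = polydisc).  ALL GERMS ARE GERMS AT `0`
(a germ at another point is translated to `0`).

Elementary maps (all send `0` to `0`):
* `chg φ`            : a local biholomorphism `φ`, `φ 0 = 0`;
* `lmBl i j τ`       : chart of the blow-up of `{x_i = x_j = 0}`:  `x_i = y_j (y_i + τ)`, the other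
                       coordinates unchanged (the point `τ` of the affine part of the exceptional `P¹`,
                       recentred at `0`); the point at infinity is the chart `lmBl j i 0`;
* `lmPw k`           : power substitution `x_i = y_i ^ k_i`.

`LmMon F` : the germ `F` can be made `unit * monomial` by a (well founded, infinitely branching) tree of
elementary maps; every constructor multiplies by the Jacobian of the map, so that at the leaves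
`F ∘ σ * Jac σ` is `unit * monomial`.
-/
import Claimed.Agent.R242.SCV.Defs
import Claimed.Agent.R269.Lib.SCV0

set_option autoImplicit false

open Filter Topology Set Metric

namespace Claimed.Agent.R242

variable {n : ℕ}

/-- The monomial `y ^ γ`. -/
def lmMono (γ : Fin n → ℕ) (y : Cn n) : ℂ := ∏ i, y i ^ γ i

/-- `F` is, near `0`, a unit times a monomial. -/
def LmBase (F : Cn n → ℂ) : Prop :=
  ∃ (γ : Fin n → ℕ) (u : Cn n → ℂ), AnalyticAt ℂ u 0 ∧ u 0 ≠ 0 ∧ ∀ᶠ y in 𝓝 0, F y = u y * lmMono γ y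

/-- Blow-up chart `x_i = y_j (y_i + τ)`. -/
def lmBl (i j : Fin n) (τ : ℂ) (y : Cn n) : Cn n := Function.update y i (y j * (y i + τ))

/-- Power substitution `x_i = y_i ^ k_i`. -/
def lmPw (k : Fin n → ℕ) (y : Cn n) : Cn n := fun i => y i ^ k i

/-- Jacobian determinant of `lmPw k`. -/
def lmPwJ (k : Fin n → ℕ) (y : Cn n) : ℂ := ∏ i, ((k i : ℂ) * y i ^ (k i - 1))

/-- The germ `F` (at `0`) is monomialisable. -/
inductive LmMon {n : ℕ} : (Cn n → ℂ) → Prop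
  | base {F : Cn n → ℂ} : LmBase F → LmMon F
  | chg {F : Cn n → ℂ} (φ : Cn n → Cn n) : AnalyticAt ℂ φ 0 → φ 0 = 0 → (fderiv ℂ φ 0).det ≠ 0 →
      LmMon (fun y => F (φ y) * (fderiv ℂ φ y).det) → LmMon F
  | blow {F : Cn n → ℂ} (i j : Fin n) : i ≠ j →
      (∀ τ : ℂ, LmMon (fun y => F (lmBl i j τ y) * y j)) →
      LmMon (fun y => F (lmBl j i 0 y) * y i) → LmMon F
  | pow {F : Cn n → ℂ} (k : Fin n → ℕ) : (∀ i, 0 < k i) →
      LmMon (fun y => F (lmPw k y) * lmPwJ k y) → LmMon F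

/-! ### the distinguished variable `y 0` -/

/-- forget the distinguished variable. -/
def lmTl (y : Cn (n + 1)) : Cn n := fun i => y i.succ

/-- add the distinguished variable. -/
def lmCs (t : ℂ) (x : Cn n) : Cn (n + 1) := Fin.cons t x

/-- `ψ × id` (identity in the distinguished variable). -/
def lmLift (ψ : Cn n → Cn n) (y : Cn (n + 1)) : Cn (n + 1) := lmCs (y 0) (ψ (lmTl y))

/-- the shear `t ↦ t + ξ x`. -/
def lmShift (ξ : Cn n → ℂ) (y : Cn (n + 1)) : Cn (n + 1) := lmCs (y 0 + ξ (lmTl y)) (lmTl y)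

/-- `∂/∂t`, `t = y 0`. -/
noncomputable def lmD (g : Cn (n + 1) → ℂ) (y : Cn (n + 1)) : ℂ := fderiv ℂ g y (Pi.single 0 1)

/-- normal form `∑_{k<d} c_k(x) t^k + t^d u(t,x)`. -/
def lmNF (d : ℕ) (c : ℕ → Cn n → ℂ) (u : Cn (n + 1) → ℂ) (y : Cn (n + 1)) : ℂ :=
  ∑ k ∈ Finset.range d, c k (lmTl y) * y 0 ^ k + y 0 ^ d * u y

/-- `g` is regular of order `d` in the distinguished variable. -/
def LmReg (d : ℕ) (g : Cn (n + 1) → ℂ) : Prop :=
  ∃ (c : ℕ → Cn n → ℂ) (u : Cn (n + 1) → ℂ), (∀ k, AnalyticAt ℂ (c k) 0) ∧ (∀ k, c k 0 = 0) ∧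
    AnalyticAt ℂ u 0 ∧ u 0 ≠ 0 ∧ ∀ᶠ y in 𝓝 0, g y = lmNF d c u y

/-- the exponent `d! / (d - k)`. -/
def lmE (d k : ℕ) : ℕ := d.factorial / (d - k)

/-- the function of `x` that is monomialised by the induction hypothesis. -/
def lmH (d : ℕ) (S : Finset ℕ) (T : Finset (ℕ × ℕ)) (m : Cn n → ℂ) (c : ℕ → Cn n → ℂ) (x : Cn n) : ℂ :=
  m x * (∏ k ∈ S, c k x) * ∏ p ∈ T, (c p.1 x ^ lmE d p.1 - c p.2 x ^ lmE d p.2)

/-- The relation between `h` (in `n` variables) and `G` (in `n + 1` variables) which is transported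
along the tree of `h`. -/
def LmRel (d : ℕ) (S : Finset ℕ) (T : Finset (ℕ × ℕ)) (h : Cn n → ℂ) (G : Cn (n + 1) → ℂ) : Prop :=
  ∃ (m : Cn n → ℂ) (c : ℕ → Cn n → ℂ) (u : Cn (n + 1) → ℂ),
    AnalyticAt ℂ m 0 ∧ (∀ k, AnalyticAt ℂ (c k) 0) ∧ AnalyticAt ℂ u 0 ∧ u 0 ≠ 0 ∧
    (∀ k, k ∉ S → ∀ᶠ x in 𝓝 0, c k x = 0) ∧
    (∀ p : ℕ × ℕ, p.1 ∈ S → p.2 ∈ S → p ∉ T →
      ∀ᶠ x in 𝓝 0, c p.1 x ^ lmE d p.1 = c p.2 x ^ lmE d p.2) ∧
    (∀ᶠ x in 𝓝 0, h x = lmH d S T m c x) ∧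
    ∀ᶠ y in 𝓝 0, G y = m (lmTl y) * lmNF d c u y

/-- prepared form: `G = m(x) (∑_{k<d} x^{(d-k)β} a_k(x) t^k + t^d u)`, `m` unit times monomial,
`a_{d-1} = 0`, some `a_{k₀}` a unit. -/
def LmPrep (d : ℕ) (β : Fin n → ℕ) (G : Cn (n + 1) → ℂ) : Prop :=
  ∃ (m : Cn n → ℂ) (a : ℕ → Cn n → ℂ) (u : Cn (n + 1) → ℂ),
    LmBase m ∧ AnalyticAt ℂ m 0 ∧ (∀ k, AnalyticAt ℂ (a k) 0) ∧ AnalyticAt ℂ u 0 ∧ u 0 ≠ 0 ∧
    (∀ x, a (d - 1) x = 0) ∧ (∃ k₀, k₀ < d ∧ a k₀ 0 ≠ 0) ∧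
    ∀ᶠ y in 𝓝 0, G y = m (lmTl y) * lmNF d (fun k x => lmMono ((d - k) • β) x * a k x) u y

/-- The statement `Q(d)` of the induction. -/
def LmQ (n d : ℕ) : Prop :=
  ∀ (m : Cn n → ℂ) (g : Cn (n + 1) → ℂ), AnalyticAt ℂ m 0 → (∃ᶠ x in 𝓝 0, m x ≠ 0) →
    AnalyticAt ℂ g 0 → LmReg d g → LmMon (fun y => m (lmTl y) * g y)

/-- The statement of the theorem in `n` variables. -/
def LmAll (n : ℕ) : Prop :=
  ∀ F : Cn n → ℂ, AnalyticAt ℂ F 0 → (∃ᶠ y in 𝓝 0, F y ≠ 0) → LmMon F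

/-! ### output: finite families of leaves -/

/-- `f` is `unit * monomial` on the whole set `V`. -/
def LmMonoOn (f : Cn n → ℂ) (V : Set (Cn n)) : Prop :=
  ∃ (e : Fin n → ℕ) (u : Cn n → ℂ), AnalyticOnNhd ℂ u V ∧ (∀ y ∈ V, u y ≠ 0) ∧
    ∀ y ∈ V, f y = u y * lmMono e y

/-- The part of `V` where `J ≠ 0` is covered by finitely many measurable sets on which `σ` is
injective. -/
def LmInjCov (σ : Cn n → Cn n) (J : Cn n → ℂ) (V : Set (Cn n)) : Prop :=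
  ∃ 𝒮 : Set (Set (Cn n)), 𝒮.Finite ∧ (∀ A ∈ 𝒮, MeasurableSet A ∧ InjOn σ A) ∧
    {y | y ∈ V ∧ J y ≠ 0} ⊆ ⋃₀ 𝒮

/-- A leaf: the polydisc `ball 0 r` and the map `σ`. -/
structure LmLeaf (n : ℕ) where
  /-- polyradius -/
  r : ℝ
  /-- the map -/
  σ : Cn n → Cn n

/-- The Jacobian determinant. -/
noncomputable def lmJac (σ : Cn n → Cn n) (y : Cn n) : ℂ := (fderiv ℂ σ y).det

/-- `L` is a good leaf for the functions `G i` (to be monomialised), the factor `F₂` (which is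
monomialised together with the Jacobian) and the target set `N`. -/
def LmLeaf.Good {ι : Type} (L : LmLeaf n) (G : ι → Cn n → ℂ) (F₂ : Cn n → ℂ) (N : Set (Cn n)) : Prop :=
  0 < L.r ∧ AnalyticOnNhd ℂ L.σ (ball 0 L.r) ∧ MapsTo L.σ (ball 0 L.r) N ∧
  (∀ i, LmMonoOn (fun y => G i (L.σ y)) (ball 0 L.r)) ∧
  LmMonoOn (fun y => F₂ (L.σ y) * lmJac L.σ y) (ball 0 L.r) ∧
  LmInjCov L.σ (lmJac L.σ) (ball 0 L.r)

/-- The compact parts of the leaves of `S` cover the set `lmCover S`. -/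
def lmCover (S : Set (LmLeaf n)) : Set (Cn n) := ⋃ L ∈ S, L.σ '' closedBall 0 (L.r / 2)

/-- post-composition of a leaf with a map. -/
def LmLeaf.comp (φ : Cn n → Cn n) (L : LmLeaf n) : LmLeaf n := ⟨L.r, fun y => φ (L.σ y)⟩

end Claimed.Agent.R242
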