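/-
Row 242, package LM, file Germ: germs of analytic functions at `0 ∈ Cn n`, monomials, `LmBase`.
Owner of the statements: helper119.   Tools: `Claimed.Agent.R269.SCV.*` (file R269/Lib/SCVa.lean):
`eventually_eq_zero_or_of_mul` (germs form a domain), `exists_eq_mul_of_vanishing_linear` (division by a
linear form), `exists_ball_analyticOnNhd`, `eventually_frequently_ne_zero`.

LEAVES
* LM-G1 : the elementary lemmas on `lmMono` / `LmBase` of section `basic`.
* LM-G2 : `lm_factor` (+ `lm_factor_prod`, `lm_prod_frequently_ne`).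
    Proof of `lm_factor`: induction on `∑ γ i` (γ = exponent of `A * B`).  `γ = 0`: `A 0 * B 0 ≠ 0`.
    `γ j > 0`: `A * B` vanishes on `{y j = 0}` near `0`; with `ι y = Function.update y j 0` the germs
    `A ∘ ι`, `B ∘ ι` are analytic and their product is `0`, so one of them, say `A ∘ ι`, is `0` near `0`,
    i.e. `A` vanishes on `{y j = 0}`; division: `A = y j * A₁`; then `y j * (A₁ * B - u * y^(γ - e_j)) = 0`,
    the germ `y j` is not `0`, so `A₁ * B = u * y^(γ - e_j)` near `0`; induction.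
* LM-G3 : `lm_comparable`.
    Proof: put `δ = α ⊓ β`, `α' = α - δ`, `β' = β - δ` (disjoint supports).  Assume both are `≠ 0`.
    `A - B = y^δ * H`, `H = u y^α' - v y^β'`, `H 0 = 0`.  If `A - B = 0` near `0` then `H = 0` near `0`
    (domain).  Otherwise `LmBase H` by `lm_factor`, `H = w y^ε`, `ε ≠ 0`, so in both cases `H` vanishes on
    some `{y l = 0}` near `0` (any `l` in the first case).  Evaluate at the points `s • 1_Z` (`s → 0`,
    `s ≠ 0`, `1_Z` = indicator of the complement of a set `Z` of one or two indices chosen so that exactly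
    one of the two monomials vanishes): contradiction.
-/
import Claimed.Agent.R242.LM.Defs

set_option autoImplicit false

open Filter Topology Set Metric

namespace Claimed.Agent.R242

variable {n : ℕ}

section basic

theorem lmMono_zero (y : Cn n) : lmMono (0 : Fin n → ℕ) y = 1 := by
  simp [lmMono]

theorem lmMono_add (γ δ : Fin n → ℕ) (y : Cn n) : lmMono (γ + δ) y = lmMono γ y * lmMono δ y := by
  simp [lmMono, pow_add, Finset.prod_mul_distrib]

theorem lmMono_single (i : Fin n) (e : ℕ) (y : Cn n) : lmMono (Pi.single i e) y = y i ^ e := by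
  classical
  unfold lmMono
  rw [Finset.prod_eq_single i]
  · simp
  · intro b _ hb
    simp [Pi.single_eq_of_ne hb]
  · simp

theorem lmMono_smul (e : ℕ) (γ : Fin n → ℕ) (y : Cn n) : lmMono (e • γ) y = lmMono γ y ^ e := by
  simp [lmMono, ← Finset.prod_pow, ← pow_mul, mul_comm]

theorem analyticAt_lmMono (γ : Fin n → ℕ) (y : Cn n) : AnalyticAt ℂ (lmMono γ) y := by
  unfold lmMono
  exact Finset.analyticAt_fun_prod _ fun i _ =>
    ((ContinuousLinearMap.proj (R := ℂ) (φ := fun _ : Fin n => ℂ) i).analyticAt y).pow _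

theorem lmMono_ne_zero {γ : Fin n → ℕ} {y : Cn n} (hy : ∀ i, y i ≠ 0) : lmMono γ y ≠ 0 :=
  Finset.prod_ne_zero_iff.2 fun i _ => pow_ne_zero _ (hy i)

theorem lmMono_eq_zero {γ : Fin n → ℕ} {y : Cn n} {i : Fin n} (hγ : 0 < γ i) (hy : y i = 0) :
    lmMono γ y = 0 :=
  Finset.prod_eq_zero (Finset.mem_univ i) (by rw [hy]; exact zero_pow hγ.ne')

theorem LmBase.congr {F G : Cn n → ℂ} (h : LmBase F) (hFG : ∀ᶠ y in 𝓝 0, F y = G y) : LmBase G := by
  obtain ⟨γ, u, hu, hu0, he⟩ := h
  exact ⟨γ, u, hu, hu0, by filter_upwards [he, hFG] with y h1 h2 using h2 ▸ h1⟩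

theorem LmBase.of_unit {u : Cn n → ℂ} (hu : AnalyticAt ℂ u 0) (hu0 : u 0 ≠ 0) : LmBase u :=
  ⟨0, u, hu, hu0, Eventually.of_forall fun y => by rw [lmMono_zero, mul_one]⟩

theorem lmBase_lmMono (γ : Fin n → ℕ) : LmBase (lmMono γ) :=
  ⟨γ, fun _ => 1, analyticAt_const, one_ne_zero, Eventually.of_forall fun y => by rw [one_mul]⟩

theorem LmBase.mul {F G : Cn n → ℂ} (hF : LmBase F) (hG : LmBase G) : LmBase (fun y => F y * G y) := by
  obtain ⟨γ, u, hu, hu0, he⟩ := hF
  obtain ⟨δ, v, hv, hv0, he'⟩ := hG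
  refine ⟨γ + δ, fun y => u y * v y, hu.mul hv, mul_ne_zero hu0 hv0, ?_⟩
  filter_upwards [he, he'] with y h1 h2
  rw [h1, h2, lmMono_add]
  ring

theorem lmBase_coord (i : Fin n) (e : ℕ) : LmBase (fun y : Cn n => y i ^ e) :=
  (lmBase_lmMono (Pi.single i e)).congr (Eventually.of_forall fun y => lmMono_single i e y)

/-- LM-G1. -/
theorem LmBase.analyticAt_congr {F : Cn n → ℂ} (h : LmBase F) :
    ∃ F' : Cn n → ℂ, AnalyticAt ℂ F' 0 ∧ ∀ᶠ y in 𝓝 0, F y = F' y := by
  obtain ⟨γ, u, hu, -, he⟩ := h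
  exact ⟨fun y => u y * lmMono γ y, hu.mul (analyticAt_lmMono γ 0), he⟩

/-- LM-G1.  A unit times a monomial is not the zero germ (evaluate at `s • 1`, `s → 0`, `s ≠ 0`). -/
theorem LmBase.frequently_ne {F : Cn n → ℂ} (h : LmBase F) : ∃ᶠ y in 𝓝 0, F y ≠ 0 := by
  obtain ⟨γ, u, hu, hu0, he⟩ := h
  have h1 : ∃ᶠ y in 𝓝 (0 : Cn n), ∀ i, y i ≠ 0 := by
    have ht : Tendsto (fun s : ℂ => (fun _ => s : Cn n)) (𝓝[≠] 0) (𝓝 0) := by
      have hc : Continuous (fun s : ℂ => (fun _ => s : Cn n)) := continuous_pi fun _ => continuous_id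
      exact (hc.tendsto 0).mono_left nhdsWithin_le_nhds
    refine ht.frequently (Eventually.frequently ?_)
    filter_upwards [self_mem_nhdsWithin] with s hs i using hs
  refine (h1.and_eventually (he.and (hu.continuousAt.eventually_ne hu0))).mono ?_
  rintro y ⟨hy, hF, huy⟩
  rw [hF]
  exact mul_ne_zero huy (lmMono_ne_zero hy)

end basic

/-- LM-G2, helper: the projection onto the hyperplane `{y j = 0}`. -/
theorem lm_analyticAt_update_zero (j : Fin n) :
    AnalyticAt ℂ (fun y : Cn n => Function.update y j 0) 0 := by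
  have e : (fun y : Cn n => Function.update y j 0) =
      fun y : Cn n => y - (ContinuousLinearMap.proj (R := ℂ) (φ := fun _ : Fin n => ℂ) j y) •
        (Pi.single j 1 : Cn n) := by
    funext y
    funext i
    by_cases hi : i = j
    · subst hi
      simp
    · simp [Function.update_of_ne hi, Pi.single_eq_of_ne hi]
  rw [e]
  exact analyticAt_id.sub
    (((ContinuousLinearMap.proj (R := ℂ) (φ := fun _ : Fin n => ℂ) j).analyticAt 0).smul
      analyticAt_const)

/-- LM-G2, helper: an analytic germ vanishing on `{y j = 0}` is divisible by `y j`. -/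
theorem lm_div_coord {A : Cn n → ℂ} (hA : AnalyticAt ℂ A 0) (j : Fin n)
    (h : ∀ᶠ y in 𝓝 (0 : Cn n), A (Function.update y j 0) = 0) :
    ∃ A₁ : Cn n → ℂ, AnalyticAt ℂ A₁ 0 ∧ ∀ᶠ y in 𝓝 0, A y = y j * A₁ y := by
  have hvan : ∀ᶠ y in 𝓝 (0 : Cn n),
      (ContinuousLinearMap.proj (R := ℂ) (φ := fun _ : Fin n => ℂ) j) (y - 0) = 0 → A y = 0 := by
    filter_upwards [h] with y hy hj
    have hj' : y j = 0 := by simpa using hj
    have : Function.update y j 0 = y := by
      rw [← hj']
      exact Function.update_eq_self j y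
    rwa [this] at hy
  obtain ⟨A₁, hA₁, he⟩ := Claimed.Agent.R269.SCV.exists_eq_mul_of_vanishing_linear
    (ContinuousLinearMap.proj (R := ℂ) (φ := fun _ : Fin n => ℂ) j) (v := Pi.single j 1)
    (by simp) hA hvan
  refine ⟨A₁, hA₁, ?_⟩
  filter_upwards [he] with y hy
  simpa using hy

/-- LM-G2, helper: the induction on the degree of the monomial. -/
theorem lm_factor_aux (N : ℕ) : ∀ (γ : Fin n → ℕ), ∑ i, γ i = N → ∀ (A B u : Cn n → ℂ),
    AnalyticAt ℂ A 0 → AnalyticAt ℂ B 0 → AnalyticAt ℂ u 0 → u 0 ≠ 0 →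
    (∀ᶠ y in 𝓝 0, A y * B y = u y * lmMono γ y) → LmBase A ∧ LmBase B := by
  induction N with
  | zero =>
    intro γ hγ A B u hA hB hu hu0 he
    have hγ0 : γ = 0 := by
      funext i
      exact (Finset.sum_eq_zero_iff.1 hγ) i (Finset.mem_univ i)
    subst hγ0
    have h0 := he.self_of_nhds
    rw [lmMono_zero, mul_one] at h0
    have h1 : A 0 * B 0 ≠ 0 := h0 ▸ hu0
    exact ⟨LmBase.of_unit hA (left_ne_zero_of_mul h1), LmBase.of_unit hB (right_ne_zero_of_mul h1)⟩
  | succ N ih =>
    intro γ hγ A B u hA hB hu hu0 he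
    obtain ⟨j, hj⟩ : ∃ j, 0 < γ j := by
      by_contra hcon
      have : ∑ i, γ i = 0 := Finset.sum_eq_zero fun i _ =>
        Nat.le_zero.1 (not_lt.1 fun hi => hcon ⟨i, hi⟩)
      omega
    -- the smaller exponent
    set γ' : Fin n → ℕ := γ - Pi.single j 1 with hγ'
    have hsplit : γ = γ' + Pi.single j 1 := by
      funext i
      by_cases hi : i = j
      · subst hi
        simp only [hγ', Pi.add_apply, Pi.sub_apply, Pi.single_eq_same]
        omega
      · simp [hγ', Pi.single_eq_of_ne hi]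
    have hsum : ∑ i, γ' i = N := by
      have : ∑ i, γ i = ∑ i, γ' i + 1 := by
        conv_lhs => rw [hsplit]
        simp only [Pi.add_apply, Finset.sum_add_distrib]
        congr 1
        rw [Finset.sum_eq_single j]
        · simp
        · intro b _ hb
          simp [Pi.single_eq_of_ne hb]
        · simp
      omega
    have hmono : ∀ y : Cn n, lmMono γ y = y j * lmMono γ' y := by
      intro y
      rw [hsplit, lmMono_add, lmMono_single, pow_one, mul_comm]
    have hι := lm_analyticAt_update_zero (n := n) j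
    have hι0 : Function.update (0 : Cn n) j 0 = 0 := by
      funext i
      by_cases hi : i = j
      · subst hi
        simp
      · simp [Function.update_of_ne hi]
    have hιt : Tendsto (fun y : Cn n => Function.update y j 0) (𝓝 0) (𝓝 0) := by
      have := hι.continuousAt.tendsto
      rwa [hι0] at this
    -- the step for a factor which vanishes on the hyperplane
    have key : ∀ A B : Cn n → ℂ, AnalyticAt ℂ A 0 → AnalyticAt ℂ B 0 →
        (∀ᶠ y in 𝓝 0, A y * B y = u y * lmMono γ y) →
        (∀ᶠ y in 𝓝 (0 : Cn n), A (Function.update y j 0) = 0) → LmBase A ∧ LmBase B := by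
      intro A B hA hB he hv
      obtain ⟨A₁, hA₁, hdiv⟩ := lm_div_coord hA j hv
      have hprod : ∀ᶠ y in 𝓝 (0 : Cn n), y j * (A₁ y * B y - u y * lmMono γ' y) = 0 := by
        filter_upwards [he, hdiv] with y h1 h2
        rw [h2, hmono] at h1
        linear_combination h1
      have hcoord : AnalyticAt ℂ (fun y : Cn n => y j) 0 :=
        (ContinuousLinearMap.proj (R := ℂ) (φ := fun _ : Fin n => ℂ) j).analyticAt 0
      rcases Claimed.Agent.R269.SCV.eventually_eq_zero_or_of_mul hcoord
        ((hA₁.mul hB).sub (hu.mul (analyticAt_lmMono γ' 0))) hprod with h0 | h0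
      · exfalso
        have hf := (lmBase_coord (n := n) j 1).frequently_ne
        apply hf
        filter_upwards [h0] with y hy
        simpa using hy
      · have he' : ∀ᶠ y in 𝓝 (0 : Cn n), A₁ y * B y = u y * lmMono γ' y := by
          filter_upwards [h0] with y hy
          exact sub_eq_zero.1 hy
        obtain ⟨b1, b2⟩ := ih γ' hsum A₁ B u hA₁ hB hu hu0 he'
        refine ⟨((lmBase_coord (n := n) j 1).mul b1).congr ?_, b2⟩
        filter_upwards [hdiv] with y hy
        rw [hy, pow_one]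
    have hAι : AnalyticAt ℂ (fun y : Cn n => A (Function.update y j 0)) 0 := by
      have hA' : AnalyticAt ℂ A ((fun y : Cn n => Function.update y j 0) 0) := by
        show AnalyticAt ℂ A (Function.update (0 : Cn n) j 0)
        rwa [hι0]
      exact AnalyticAt.comp (f := fun y : Cn n => Function.update y j 0) hA' hι
    have hBι : AnalyticAt ℂ (fun y : Cn n => B (Function.update y j 0)) 0 := by
      have hB' : AnalyticAt ℂ B ((fun y : Cn n => Function.update y j 0) 0) := by
        show AnalyticAt ℂ B (Function.update (0 : Cn n) j 0)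
        rwa [hι0]
      exact AnalyticAt.comp (f := fun y : Cn n => Function.update y j 0) hB' hι
    have hz : ∀ᶠ y in 𝓝 (0 : Cn n),
        A (Function.update y j 0) * B (Function.update y j 0) = 0 := by
      filter_upwards [hιt.eventually he] with y hy
      rw [hy, lmMono_eq_zero hj (Function.update_self j 0 y), mul_zero]
    rcases Claimed.Agent.R269.SCV.eventually_eq_zero_or_of_mul hAι hBι hz with h0 | h0
    · exact key A B hA hB he h0
    · have he' : ∀ᶠ y in 𝓝 (0 : Cn n), B y * A y = u y * lmMono γ y := by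
        filter_upwards [he] with y hy
        rw [mul_comm, hy]
      exact (key B A hB hA he' h0).symm

/-- LM-G2.  Factors of `unit * monomial` are `unit * monomial`. -/
theorem lm_factor {A B : Cn n → ℂ} (hA : AnalyticAt ℂ A 0) (hB : AnalyticAt ℂ B 0)
    (h : LmBase (fun y => A y * B y)) : LmBase A ∧ LmBase B := by
  obtain ⟨γ, u, hu, hu0, he⟩ := h
  exact lm_factor_aux _ γ rfl A B u hA hB hu hu0 he

/-- LM-G2. -/
theorem lm_factor_prod {ι : Type*} (s : Finset ι) (A : ι → Cn n → ℂ)
    (hA : ∀ i ∈ s, AnalyticAt ℂ (A i) 0) (h : LmBase (fun y => ∏ i ∈ s, A i y)) :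
    ∀ i ∈ s, LmBase (A i) := by
  classical
  intro i hi
  have h1 : AnalyticAt ℂ (fun y => ∏ k ∈ s.erase i, A k y) 0 :=
    Finset.analyticAt_fun_prod _ fun k hk => hA k (Finset.mem_of_mem_erase hk)
  have h2 : LmBase (fun y => A i y * ∏ k ∈ s.erase i, A k y) :=
    h.congr (Eventually.of_forall fun y => (Finset.mul_prod_erase s (fun k => A k y) hi).symm)
  exact (lm_factor (hA i hi) h1 h2).1

/-- LM-G2.  Germs form a domain (finite products). -/
theorem lm_prod_frequently_ne {ι : Type*} (s : Finset ι) (A : ι → Cn n → ℂ)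
    (hA : ∀ i ∈ s, AnalyticAt ℂ (A i) 0) (h : ∀ i ∈ s, ∃ᶠ y in 𝓝 0, A i y ≠ 0) :
    ∃ᶠ y in 𝓝 0, ∏ i ∈ s, A i y ≠ 0 := by
  classical
  induction s using Finset.induction_on with
  | empty =>
    exact Eventually.frequently (Eventually.of_forall fun y => by simp)
  | insert a s ha ih =>
    have ih' := ih (fun i hi => hA i (Finset.mem_insert_of_mem hi))
      (fun i hi => h i (Finset.mem_insert_of_mem hi))
    intro hcon
    have hz : ∀ᶠ y in 𝓝 (0 : Cn n), A a y * ∏ i ∈ s, A i y = 0 := by
      filter_upwards [hcon] with y hy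
      rw [Finset.prod_insert ha] at hy
      exact not_not.1 hy
    have h1 : AnalyticAt ℂ (fun y => ∏ k ∈ s, A k y) 0 :=
      Finset.analyticAt_fun_prod _ fun k hk => hA k (Finset.mem_insert_of_mem hk)
    rcases Claimed.Agent.R269.SCV.eventually_eq_zero_or_of_mul
      (hA a (Finset.mem_insert_self a s)) h1 hz with h0 | h0
    · exact h a (Finset.mem_insert_self a s) (h0.mono fun y hy => not_not.2 hy)
    · exact ih' (h0.mono fun y hy => not_not.2 hy)

/-- test points `s • 1_{Zᶜ}`, `s ≠ 0` small -/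
theorem lm_exists_test_point (Z : Fin n → Prop) [DecidablePred Z] {P : Cn n → Prop}
    (h : ∀ᶠ y in 𝓝 (0 : Cn n), P y) : ∃ s : ℂ, s ≠ 0 ∧ P (fun i => if Z i then 0 else s) := by
  have hc : Continuous fun s : ℂ => (fun i => if Z i then 0 else s : Cn n) := by
    refine continuous_pi fun i => ?_
    by_cases hi : Z i
    · simp only [hi, if_true]; exact continuous_const
    · simp only [hi, if_false]; exact continuous_id
  have h0 : (fun i => if Z i then 0 else (0 : ℂ) : Cn n) = 0 := by
    funext i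
    simp
  have h1 : ∀ᶠ s in 𝓝 (0 : ℂ), P (fun i => if Z i then 0 else s) := by
    have := hc.tendsto 0
    rw [h0] at this
    exact this.eventually h
  obtain ⟨s, hs1, hs2⟩ := ((h1.filter_mono nhdsWithin_le_nhds).and
    (self_mem_nhdsWithin : {(0 : ℂ)}ᶜ ∈ 𝓝[≠] (0 : ℂ))).exists
  exact ⟨s, hs2, hs1⟩

theorem lmMono_ne_zero' {γ : Fin n → ℕ} {y : Cn n} (hy : ∀ i, γ i = 0 ∨ y i ≠ 0) : lmMono γ y ≠ 0 :=
  Finset.prod_ne_zero_iff.2 fun i _ => by
    rcases hy i with h | h
    · rw [h, pow_zero]; exact one_ne_zero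
    · exact pow_ne_zero _ h

/-- LM-G3.  If `a`, `b` and `a - b` are `unit * monomial` (or `a = b`) then the exponents of `a`, `b` are
comparable. -/
theorem lm_comparable {α β : Fin n → ℕ} {u v : Cn n → ℂ} (hu : AnalyticAt ℂ u 0) (hu0 : u 0 ≠ 0)
    (hv : AnalyticAt ℂ v 0) (hv0 : v 0 ≠ 0)
    (h : (∀ᶠ y in 𝓝 0, u y * lmMono α y = v y * lmMono β y) ∨
      LmBase (fun y => u y * lmMono α y - v y * lmMono β y)) : α ≤ β ∨ β ≤ α := by
  classical
  by_contra hcon
  push Not at hcon
  obtain ⟨h1, h2⟩ := hcon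
  obtain ⟨i0, hi0⟩ : ∃ i, β i < α i := by
    by_contra hc
    push Not at hc
    exact h1 hc
  obtain ⟨j0, hj0⟩ : ∃ j, α j < β j := by
    by_contra hc
    push Not at hc
    exact h2 hc
  have hαd : α = (α ⊓ β) + (α - α ⊓ β) := by
    funext k
    simp only [Pi.add_apply, Pi.sub_apply, Pi.inf_apply]
    omega
  have hβd : β = (α ⊓ β) + (β - α ⊓ β) := by
    funext k
    simp only [Pi.add_apply, Pi.sub_apply, Pi.inf_apply]
    omega
  have hdisj : ∀ k, (α - α ⊓ β) k = 0 ∨ (β - α ⊓ β) k = 0 := by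
    intro k
    simp only [Pi.sub_apply, Pi.inf_apply]
    omega
  have hi0' : 0 < (α - α ⊓ β) i0 := by
    simp only [Pi.sub_apply, Pi.inf_apply]
    omega
  have hj0' : 0 < (β - α ⊓ β) j0 := by
    simp only [Pi.sub_apply, Pi.inf_apply]
    omega
  generalize hα' : α - α ⊓ β = α' at hαd hdisj hi0'
  generalize hβ' : β - α ⊓ β = β' at hβd hdisj hj0'
  generalize α ⊓ β = δ at hαd hβd
  have hH : AnalyticAt ℂ (fun y => u y * lmMono α' y - v y * lmMono β' y) 0 :=
    (hu.mul (analyticAt_lmMono α' 0)).sub (hv.mul (analyticAt_lmMono β' 0))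
  have hfac : ∀ y, u y * lmMono α y - v y * lmMono β y
      = lmMono δ y * (u y * lmMono α' y - v y * lmMono β' y) := by
    intro y
    rw [hαd, hβd, lmMono_add, lmMono_add]
    ring
  -- `H` vanishes on some coordinate hyperplane
  have hl : ∃ l : Fin n, ∀ᶠ y in 𝓝 (0 : Cn n), y l = 0 → u y * lmMono α' y - v y * lmMono β' y = 0 := by
    rcases h with h | h
    · have h3 : ∀ᶠ y in 𝓝 (0 : Cn n), lmMono δ y * (u y * lmMono α' y - v y * lmMono β' y) = 0 := by
        filter_upwards [h] with y hy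
        rw [← hfac, hy, sub_self]
      rcases R269.SCV.eventually_eq_zero_or_of_mul (analyticAt_lmMono δ 0) hH h3 with h4 | h4
      · obtain ⟨s, hs, hs'⟩ := lm_exists_test_point (fun _ => False) h4
        exact absurd hs' (lmMono_ne_zero fun i => by simpa using hs)
      · exact ⟨i0, h4.mono fun y hy _ => hy⟩
    · have h3 : LmBase (fun y => lmMono δ y * (u y * lmMono α' y - v y * lmMono β' y)) :=
        h.congr (Eventually.of_forall hfac)
      obtain ⟨ε, w, -, hw0, he⟩ := (lm_factor (analyticAt_lmMono δ 0) hH h3).2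
      have he : ∀ᶠ y in 𝓝 (0 : Cn n), u y * lmMono α' y - v y * lmMono β' y = w y * lmMono ε y := he
      have h4 := he.self_of_nhds
      rw [lmMono_eq_zero (y := (0 : Cn n)) hi0' rfl, lmMono_eq_zero (y := (0 : Cn n)) hj0' rfl, mul_zero,
        mul_zero, sub_zero] at h4
      have h5 : lmMono ε (0 : Cn n) = 0 := (mul_eq_zero.1 h4.symm).resolve_left hw0
      obtain ⟨l, hl⟩ : ∃ l, 0 < ε l := by
        by_contra hc
        push Not at hc
        have : ε = 0 := funext fun k => Nat.le_zero.1 (hc k)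
        rw [this, lmMono_zero] at h5
        exact one_ne_zero h5
      refine ⟨l, he.mono fun y hy hyl => ?_⟩
      rw [hy, lmMono_eq_zero hl hyl, mul_zero]
  obtain ⟨l, hl⟩ := hl
  have hune : ∀ᶠ y in 𝓝 (0 : Cn n), u y ≠ 0 := hu.continuousAt.eventually_ne hu0
  have hvne : ∀ᶠ y in 𝓝 (0 : Cn n), v y ≠ 0 := hv.continuousAt.eventually_ne hv0
  by_cases hlα : α' l = 0
  · obtain ⟨s, hs, hs1, hs2⟩ := lm_exists_test_point (fun k => k = l ∨ k = j0) (hl.and hune)
    have h3 := hs1 (by simp)
    rw [lmMono_eq_zero hj0' (by simp), mul_zero, sub_zero] at h3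
    refine (mul_ne_zero hs2 (lmMono_ne_zero' fun k => ?_)) h3
    by_cases hk : k = l ∨ k = j0
    · left
      rcases hk with rfl | rfl
      · exact hlα
      · exact (hdisj k).resolve_right hj0'.ne'
    · right
      simpa [hk] using hs
  · obtain ⟨s, hs, hs1, hs2⟩ := lm_exists_test_point (fun k => k = l) (hl.and hvne)
    have h3 := hs1 (by simp)
    rw [lmMono_eq_zero (Nat.pos_of_ne_zero hlα) (by simp), mul_zero, zero_sub, neg_eq_zero] at h3
    refine (mul_ne_zero hs2 (lmMono_ne_zero' fun k => ?_)) h3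
    by_cases hk : k = l
    · left
      rw [hk]
      exact (hdisj l).resolve_left hlα
    · right
      simpa [hk] using hs

end Claimed.Agent.R242
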