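/-
Row 242, package LM, file Elem: the elementary maps (`lmBl`, `lmPw`, `lmLift`, `lmShift`, local
biholomorphisms): values at `0`, analyticity, Jacobians, injectivity, images of neighbourhoods.
Owner of the statements: helper119.

LEAVES
* LM-E1 : section `coords` + section `bl` (blow-up chart: analytic, Jacobian `y j`, injective off `y j = 0`).
    Jacobian: `(fderiv ℂ σ y).det = (Matrix.of fun a b => fderiv ℂ σ y (Pi.single b 1) a).det`
    (`ContinuousLinearMap.det`, `LinearMap.det_toMatrix'`); the matrix is the identity except for row `i`;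
    e.g. write it as a transvection times a diagonal matrix, or expand along row/column, or
    `Matrix.det_of_upperTriangular`-style after noticing only column/row `i` matters:
    `Matrix.det_updateRow ...`, `Matrix.det_one`.
* LM-E2 : section `pw` (power substitution: Jacobian = diagonal matrix; injectivity cover:
    for `ω : ∀ i, {w : ℂ // w ^ k i = 1}` let `A_ω = {y | ∀ i, y i = ω i * ((y i) ^ k i) ^ ((k i : ℂ)⁻¹)}`
    (principal branch `Complex.cpow`): measurable, `lmPw k` injective on it, the `A_ω` cover everything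
    and there are finitely many `ω`).
* LM-E3 : section `lift` (`ψ × id` and the shear: block triangular Jacobians).
* LM-E4 : section `cover` : `lm_cover_chg`, `lm_chg_nhd` (inverse function theorem:
    `HasStrictFDerivAt.map_nhds_eq_of_equiv`, `HasStrictFDerivAt.toOpenPartialHomeomorph`; an invertible
    `fderiv` from `det ≠ 0`: `LinearEquiv.ofIsUnitDet` / `ContinuousLinearEquiv.ofIsUnitDet`...),
    `lm_cover_pow` (k-th roots).
* LM-E5 : `lm_cover_blow` (compactness of the exceptional `P¹`).  Proof: `ball 0 ε ⊆ U'`, `R = 1/ε`;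
    `ball 0 (δ τ) ⊆ U τ`; finitely many discs `ball τ (δ τ)`, `τ ∈ Θ`, cover `closedBall 0 R`;
    `δ' = min ε (min_{τ∈Θ} δ τ)`.  For `‖x‖ < δ'`: if `x j ≠ 0` and `‖x i‖ ≤ R ‖x j‖`, take `τ ∈ Θ` with
    `‖x i / x j - τ‖ < δ τ` and `y = update x i (x i / x j - τ)`; otherwise, if `x i ≠ 0`,
    `y = update x j (x j / x i)` in the chart at infinity; if `x i = 0` then `x j = 0` and `y = x`.
-/
import Claimed.Agent.R242.LM.Germ

set_option autoImplicit false

open Filter Topology Set Metric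

namespace Claimed.Agent.R242

variable {n : ℕ}

section coords

@[simp] theorem lmTl_lmCs (t : ℂ) (x : Cn n) : lmTl (lmCs t x) = x := by
  funext i; simp [lmTl, lmCs]

@[simp] theorem lmCs_apply_zero (t : ℂ) (x : Cn n) : lmCs t x 0 = t := by
  simp [lmCs]

@[simp] theorem lmCs_apply_succ (t : ℂ) (x : Cn n) (i : Fin n) : lmCs t x i.succ = x i := by
  simp [lmCs]

@[simp] theorem lmTl_apply (y : Cn (n + 1)) (i : Fin n) : lmTl y i = y i.succ := rfl

theorem lmCs_eta (y : Cn (n + 1)) : lmCs (y 0) (lmTl y) = y := by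
  funext i
  refine Fin.cases ?_ (fun j => ?_) i <;> simp

@[simp] theorem lmTl_zero : lmTl (0 : Cn (n + 1)) = 0 := rfl

@[simp] theorem lmCs_zero_zero : lmCs 0 (0 : Cn n) = 0 := by
  funext i
  refine Fin.cases ?_ (fun j => ?_) i <;> simp

theorem analyticAt_coord (i : Fin n) (y : Cn n) : AnalyticAt ℂ (fun y : Cn n => y i) y :=
  (ContinuousLinearMap.proj (R := ℂ) (φ := fun _ : Fin n => ℂ) i).analyticAt y

theorem analyticAt_lmTl (y : Cn (n + 1)) : AnalyticAt ℂ (lmTl : Cn (n + 1) → Cn n) y := by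
  rw [analyticAt_pi_iff]
  exact fun i => analyticAt_coord i.succ y

theorem analyticAt_lmCs {E : Type*} [NormedAddCommGroup E] [NormedSpace ℂ E] {f : E → ℂ} {g : E → Cn n}
    {z : E} (hf : AnalyticAt ℂ f z) (hg : AnalyticAt ℂ g z) :
    AnalyticAt ℂ (fun w => lmCs (f w) (g w)) z := by
  rw [analyticAt_pi_iff]
  intro i
  refine Fin.cases ?_ (fun j => ?_) i
  · simpa using hf
  · simpa using (analyticAt_pi_iff.1 hg) j

theorem tendsto_lmTl_zero : Tendsto (lmTl : Cn (n + 1) → Cn n) (𝓝 0) (𝓝 0) := by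
  have := (analyticAt_lmTl (0 : Cn (n + 1))).continuousAt.tendsto
  simpa using this

theorem lmMono_cons (e : ℕ) (γ : Fin n → ℕ) (y : Cn (n + 1)) :
    lmMono (Fin.cons e γ : Fin (n + 1) → ℕ) y = y 0 ^ e * lmMono γ (lmTl y) := by
  simp [lmMono, Fin.prod_univ_succ]

end coords

section bl

theorem lmBl_zero (i j : Fin n) (τ : ℂ) : lmBl i j τ (0 : Cn n) = 0 := by
  funext a
  by_cases h : a = i
  · subst h; simp [lmBl]
  · simp [lmBl, Function.update_of_ne h]

theorem lmBl_apply_self (i j : Fin n) (τ : ℂ) (y : Cn n) : lmBl i j τ y i = y j * (y i + τ) := by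
  simp [lmBl]

theorem lmBl_apply_of_ne {i a : Fin n} (h : a ≠ i) (j : Fin n) (τ : ℂ) (y : Cn n) :
    lmBl i j τ y a = y a := by
  simp [lmBl, Function.update_of_ne h]

theorem analyticAt_lmBl (i j : Fin n) (τ : ℂ) (y : Cn n) : AnalyticAt ℂ (lmBl i j τ) y := by
  rw [analyticAt_pi_iff]
  intro a
  by_cases h : a = i
  · subst h
    simp only [lmBl_apply_self]
    exact (analyticAt_coord j y).mul ((analyticAt_coord a y).add analyticAt_const)
  · simp only [lmBl_apply_of_ne h]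
    exact analyticAt_coord a y

theorem tendsto_lmBl_zero (i j : Fin n) (τ : ℂ) : Tendsto (lmBl i j τ) (𝓝 0) (𝓝 0) := by
  have := (analyticAt_lmBl i j τ (0 : Cn n)).continuousAt.tendsto
  rwa [lmBl_zero] at this

/-- the coordinate projection as a continuous linear map. -/
noncomputable def lmProj (i : Fin n) : Cn n →L[ℂ] ℂ :=
  ContinuousLinearMap.proj (R := ℂ) (φ := fun _ : Fin n => ℂ) i

theorem lmProj_apply (i : Fin n) (y : Cn n) : lmProj i y = y i := rfl

theorem lmProj_hasFDerivAt (i : Fin n) (y : Cn n) : HasFDerivAt (fun z : Cn n => z i) (lmProj i) y :=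
  (lmProj i).hasFDerivAt

/-- the Jacobian determinant from the derivatives of the components. -/
theorem lmJac_of_hasFDerivAt {σ : Cn n → Cn n} {y : Cn n} {L : Fin n → (Cn n →L[ℂ] ℂ)}
    (h : ∀ a, HasFDerivAt (fun z => σ z a) (L a) y) :
    lmJac σ y = (Matrix.of fun a b => L a (Pi.single b 1)).det := by
  classical
  have h1 : HasFDerivAt σ (ContinuousLinearMap.pi L) y := hasFDerivAt_pi.2 h
  unfold lmJac
  rw [h1.fderiv, ContinuousLinearMap.det, ← LinearMap.det_toMatrix']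
  congr 1

/-- LM-E1. -/
theorem lmJac_lmBl {i j : Fin n} (hij : i ≠ j) (τ : ℂ) (y : Cn n) : lmJac (lmBl i j τ) y = y j := by
  classical
  have hL : ∀ a, HasFDerivAt (fun z : Cn n => lmBl i j τ z a)
      (if a = i then y j • lmProj i + (y i + τ) • lmProj j else lmProj a) y := by
    intro a
    by_cases h : a = i
    · subst h
      simp only [lmBl_apply_self, if_true]
      have h1 := (lmProj_hasFDerivAt j y).mul ((lmProj_hasFDerivAt a y).add_const τ)
      exact h1
    · simp only [lmBl_apply_of_ne h, if_neg h]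
      exact lmProj_hasFDerivAt a y
  rw [lmJac_of_hasFDerivAt hL]
  have hM : (Matrix.of fun a b => (if a = i then y j • lmProj i + (y i + τ) • lmProj j else lmProj a :
      Cn n →L[ℂ] ℂ) (Pi.single b 1)) =
      Matrix.updateRow (1 : Matrix (Fin n) (Fin n) ℂ) i
        (y j • (1 : Matrix (Fin n) (Fin n) ℂ) i + (y i + τ) • (1 : Matrix (Fin n) (Fin n) ℂ) j) := by
    ext a b
    by_cases h : a = i
    · subst h
      simp [Matrix.updateRow_self, lmProj, Matrix.one_apply, Pi.single_apply, eq_comm]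
    · rw [Matrix.updateRow_ne h, Matrix.of_apply, if_neg h, lmProj_apply, Matrix.one_apply,
        Pi.single_apply]
  rw [hM, Matrix.det_updateRow_add, Matrix.det_updateRow_smul, Matrix.det_updateRow_smul,
    Matrix.updateRow_eq_self, Matrix.det_one]
  have h0 : (Matrix.updateRow (1 : Matrix (Fin n) (Fin n) ℂ) i ((1 : Matrix (Fin n) (Fin n) ℂ) j)).det = 0 := by
    refine Matrix.det_zero_of_row_eq hij ?_
    rw [Matrix.updateRow_self, Matrix.updateRow_ne hij.symm]
  rw [h0]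
  simp

/-- LM-E1. -/
theorem lmBl_injOn {i j : Fin n} (hij : i ≠ j) (τ : ℂ) : InjOn (lmBl i j τ) {y | y j ≠ 0} := by
  intro y hy y' _ h
  have h1 : ∀ a, a ≠ i → y a = y' a := by
    intro a ha
    have := congrFun h a
    rwa [lmBl_apply_of_ne ha, lmBl_apply_of_ne ha] at this
  have h2 := congrFun h i
  rw [lmBl_apply_self, lmBl_apply_self, ← h1 j hij.symm] at h2
  have h3 : y i + τ = y' i + τ := mul_left_cancel₀ hy h2
  funext a
  by_cases ha : a = i
  · subst ha
    exact add_right_cancel h3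
  · exact h1 a ha

end bl

section pw

theorem lmPw_zero {k : Fin n → ℕ} (hk : ∀ i, 0 < k i) : lmPw k (0 : Cn n) = 0 := by
  funext i
  simp [lmPw, (hk i).ne']

theorem analyticAt_lmPw (k : Fin n → ℕ) (y : Cn n) : AnalyticAt ℂ (lmPw k) y := by
  rw [analyticAt_pi_iff]
  exact fun i => (analyticAt_coord i y).pow _

theorem tendsto_lmPw_zero {k : Fin n → ℕ} (hk : ∀ i, 0 < k i) : Tendsto (lmPw k) (𝓝 0) (𝓝 0) := by
  have := (analyticAt_lmPw k (0 : Cn n)).continuousAt.tendsto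
  rwa [lmPw_zero hk] at this

theorem analyticAt_lmPwJ (k : Fin n → ℕ) (y : Cn n) : AnalyticAt ℂ (lmPwJ k) y := by
  unfold lmPwJ
  exact Finset.analyticAt_fun_prod _ fun i _ => analyticAt_const.mul ((analyticAt_coord i y).pow _)

theorem lmMono_lmPw (γ k : Fin n → ℕ) (y : Cn n) :
    lmMono γ (lmPw k y) = lmMono (fun i => k i * γ i) y := by
  simp [lmMono, lmPw, pow_mul]

/-- `lmPwJ k` is a nonzero constant times a monomial. -/
theorem lmBase_lmPwJ {k : Fin n → ℕ} (hk : ∀ i, 0 < k i) : LmBase (lmPwJ k) := by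
  refine ⟨fun i => k i - 1, fun _ => ∏ i, (k i : ℂ), analyticAt_const, ?_, Eventually.of_forall fun y => ?_⟩
  · exact Finset.prod_ne_zero_iff.2 fun i _ => Nat.cast_ne_zero.2 (hk i).ne'
  · simp [lmPwJ, lmMono, Finset.prod_mul_distrib]

/-- LM-E2. -/
theorem lmJac_lmPw (k : Fin n → ℕ) (y : Cn n) : lmJac (lmPw k) y = lmPwJ k y := by
  classical
  have hL : ∀ a, HasFDerivAt (fun z : Cn n => lmPw k z a)
      (((k a : ℂ) * y a ^ (k a - 1)) • lmProj a) y := by
    intro a
    have h := (lmProj_hasFDerivAt a y).pow (k a)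
    rw [nsmul_eq_mul] at h
    exact h
  rw [lmJac_of_hasFDerivAt hL]
  have hM : (Matrix.of fun a b => ((((k a : ℂ) * y a ^ (k a - 1)) • lmProj a : Cn n →L[ℂ] ℂ))
      (Pi.single b 1)) = Matrix.diagonal fun a => (k a : ℂ) * y a ^ (k a - 1) := by
    ext a b
    by_cases h : a = b
    · subst h
      simp [lmProj_apply]
    · simp [lmProj_apply, Matrix.diagonal_apply_ne _ h, Pi.single_eq_of_ne h]
  rw [hM, Matrix.det_diagonal]
  rfl

/-- the sets of injectivity of the power substitution. -/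
def lmPwA (k : Fin n → ℕ) (ω : Fin n → ℂ) : Set (Cn n) :=
  {y | ∀ i, y i = ω i * (y i ^ k i) ^ ((k i : ℂ)⁻¹)}

theorem lmPwA_measurable (k : Fin n → ℕ) (ω : Fin n → ℂ) : MeasurableSet (lmPwA k ω) := by
  have h : lmPwA k ω = ⋂ i, {y : Cn n | y i = ω i * (y i ^ k i) ^ ((k i : ℂ)⁻¹)} := by
    ext y
    simp [lmPwA]
  rw [h]
  refine MeasurableSet.iInter fun i => ?_
  have h0 : Measurable fun y : Cn n => y i := measurable_pi_apply i
  exact measurableSet_eq_fun h0 (((h0.pow_const (k i)).pow_const ((k i : ℂ)⁻¹)).const_mul (ω i))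

theorem lmPwA_injOn (k : Fin n → ℕ) (ω : Fin n → ℂ) : InjOn (lmPw k) (lmPwA k ω) := by
  intro y hy y' hy' h
  funext i
  have h1 : y i ^ k i = y' i ^ k i := congrFun h i
  rw [hy i, hy' i, h1]

/-- LM-E2. -/
theorem lmPw_injCov {k : Fin n → ℕ} (hk : ∀ i, 0 < k i) (J : Cn n → ℂ) : LmInjCov (lmPw k) J univ := by
  classical
  refine ⟨(fun ω => lmPwA k ω) '' (↑(Fintype.piFinset fun i => Polynomial.nthRootsFinset (k i) (1 : ℂ)) :
    Set (Fin n → ℂ)), (Finset.finite_toSet _).image _, ?_, ?_⟩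
  · rintro A ⟨ω, _, rfl⟩
    exact ⟨lmPwA_measurable k ω, lmPwA_injOn k ω⟩
  · intro y _
    have h : ∀ i, ∃ w : ℂ, w ^ k i = 1 ∧ y i = w * (y i ^ k i) ^ ((k i : ℂ)⁻¹) := by
      intro i
      have hk' : k i ≠ 0 := (hk i).ne'
      have hr : ((y i ^ k i) ^ ((k i : ℂ)⁻¹)) ^ k i = y i ^ k i := Complex.cpow_nat_inv_pow _ hk'
      by_cases hy : y i = 0
      · refine ⟨1, one_pow _, ?_⟩
        rw [hy, zero_pow hk', Complex.zero_cpow (inv_ne_zero (Nat.cast_ne_zero.2 hk'))]
        simp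
      · have hr0 : (y i ^ k i) ^ ((k i : ℂ)⁻¹) ≠ 0 := by
          intro h0
          rw [h0, zero_pow hk'] at hr
          exact pow_ne_zero _ hy hr.symm
        refine ⟨y i / (y i ^ k i) ^ ((k i : ℂ)⁻¹), ?_, ?_⟩
        · rw [div_pow, hr, div_self (pow_ne_zero _ hy)]
        · rw [div_mul_cancel₀ _ hr0]
    choose ω hω1 hω2 using h
    refine Set.mem_sUnion.2 ⟨lmPwA k ω, ⟨ω, ?_, rfl⟩, hω2⟩
    rw [Finset.mem_coe, Fintype.mem_piFinset]
    intro i
    exact (Polynomial.mem_nthRootsFinset (hk i) _).2 (hω1 i)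

end pw

section lift

theorem lmLift_zero {ψ : Cn n → Cn n} (h : ψ 0 = 0) : lmLift ψ 0 = 0 := by
  simp [lmLift, h]

theorem lmTl_lmLift (ψ : Cn n → Cn n) (y : Cn (n + 1)) : lmTl (lmLift ψ y) = ψ (lmTl y) := by
  simp [lmLift]

theorem lmLift_apply_zero (ψ : Cn n → Cn n) (y : Cn (n + 1)) : lmLift ψ y 0 = y 0 := by
  simp [lmLift]

theorem analyticAt_lmLift {ψ : Cn n → Cn n} {y : Cn (n + 1)} (hψ : AnalyticAt ℂ ψ (lmTl y)) :
    AnalyticAt ℂ (lmLift ψ) y :=
  analyticAt_lmCs (analyticAt_coord 0 y) (hψ.comp (analyticAt_lmTl y))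

theorem lmLift_lmBl (i j : Fin n) (τ : ℂ) : lmLift (lmBl i j τ) = lmBl i.succ j.succ τ := by
  funext y a
  refine Fin.cases ?_ (fun b => ?_) a
  · rw [lmLift_apply_zero, lmBl_apply_of_ne (Fin.succ_ne_zero i).symm]
  · simp only [lmLift, lmCs_apply_succ]
    by_cases h : b = i
    · subst h
      simp [lmBl_apply_self]
    · rw [lmBl_apply_of_ne h, lmBl_apply_of_ne (fun h' => h (Fin.succ_injective _ h'))]
      rfl

theorem lmLift_lmPw (k : Fin n → ℕ) : lmLift (lmPw k) = lmPw (Fin.cons 1 k : Fin (n + 1) → ℕ) := by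
  funext y a
  refine Fin.cases ?_ (fun b => ?_) a
  · simp [lmLift, lmPw]
  · simp [lmLift, lmPw]

theorem lmPwJ_cons (k : Fin n → ℕ) (y : Cn (n + 1)) :
    lmPwJ (Fin.cons 1 k : Fin (n + 1) → ℕ) y = lmPwJ k (lmTl y) := by
  simp [lmPwJ, Fin.prod_univ_succ]

/-- `lmTl` as a continuous linear map. -/
noncomputable def lmTlL : Cn (n + 1) →L[ℂ] Cn n :=
  ContinuousLinearMap.pi fun i => lmProj i.succ

theorem lmTlL_apply (y : Cn (n + 1)) : lmTlL y = lmTl y := rfl

theorem lmTlL_coe : (lmTlL : Cn (n + 1) → Cn n) = lmTl := rfl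

theorem lmTlL_single_succ (b : Fin n) : lmTlL (Pi.single b.succ 1 : Cn (n + 1)) = Pi.single b 1 := by
  classical
  funext a
  rw [lmTlL_apply, lmTl_apply]
  by_cases h : a = b
  · subst h
    simp
  · rw [Pi.single_eq_of_ne h, Pi.single_eq_of_ne (fun h' => h (Fin.succ_injective _ h'))]

theorem lmTlL_single_zero : lmTlL (Pi.single 0 1 : Cn (n + 1)) = 0 := by
  classical
  funext a
  rw [lmTlL_apply, lmTl_apply, Pi.single_eq_of_ne (Fin.succ_ne_zero a)]
  rfl

/-- LM-E3. -/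
theorem lmJac_lmLift {ψ : Cn n → Cn n} {y : Cn (n + 1)} (hψ : DifferentiableAt ℂ ψ (lmTl y)) :
    lmJac (lmLift ψ) y = lmJac ψ (lmTl y) := by
  classical
  have hT : HasFDerivAt (lmTl : Cn (n + 1) → Cn n) lmTlL y := lmTlL.hasFDerivAt
  have hL : ∀ a : Fin (n + 1), HasFDerivAt (fun z : Cn (n + 1) => lmLift ψ z a)
      (Fin.cases (motive := fun _ => Cn (n + 1) →L[ℂ] ℂ) (lmProj 0)
        (fun b => (lmProj b).comp ((fderiv ℂ ψ (lmTl y)).comp lmTlL)) a) y := by
    intro a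
    refine Fin.cases ?_ (fun b => ?_) a
    · simp only [lmLift_apply_zero, Fin.cases_zero]
      exact lmProj_hasFDerivAt 0 y
    · simp only [lmLift, lmCs_apply_succ, Fin.cases_succ]
      exact (lmProj b).hasFDerivAt.comp y (hψ.hasFDerivAt.comp y hT)
  rw [lmJac_of_hasFDerivAt hL, Matrix.det_succ_row_zero, Finset.sum_eq_single 0]
  · have hψ' : ∀ a, HasFDerivAt (fun z => ψ z a) ((lmProj a).comp (fderiv ℂ ψ (lmTl y))) (lmTl y) :=
      fun a => (lmProj a).hasFDerivAt.comp _ hψ.hasFDerivAt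
    rw [lmJac_of_hasFDerivAt hψ']
    simp only [Fin.val_zero, pow_zero, one_mul, Matrix.of_apply, Fin.cases_zero, lmProj_apply,
      Pi.single_eq_same, Fin.succAbove_zero]
    congr 1
    ext a b
    simp [lmTlL_single_succ]
  · intro b _ hb
    simp [lmProj_apply, Pi.single_eq_of_ne hb.symm]
  · simp

theorem lmShift_zero {ξ : Cn n → ℂ} (h : ξ 0 = 0) : lmShift ξ 0 = 0 := by
  simp [lmShift, h]

theorem lmTl_lmShift (ξ : Cn n → ℂ) (y : Cn (n + 1)) : lmTl (lmShift ξ y) = lmTl y := by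
  simp [lmShift]

theorem lmShift_apply_zero (ξ : Cn n → ℂ) (y : Cn (n + 1)) : lmShift ξ y 0 = y 0 + ξ (lmTl y) := by
  simp [lmShift]

theorem analyticAt_lmShift {ξ : Cn n → ℂ} {y : Cn (n + 1)} (hξ : AnalyticAt ℂ ξ (lmTl y)) :
    AnalyticAt ℂ (lmShift ξ) y :=
  analyticAt_lmCs ((analyticAt_coord 0 y).add (hξ.comp (analyticAt_lmTl y))) (analyticAt_lmTl y)

/-- LM-E3. -/
theorem lmJac_lmShift {ξ : Cn n → ℂ} {y : Cn (n + 1)} (hξ : DifferentiableAt ℂ ξ (lmTl y)) :
    lmJac (lmShift ξ) y = 1 := by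
  classical
  have hT : HasFDerivAt (lmTl : Cn (n + 1) → Cn n) lmTlL y := lmTlL.hasFDerivAt
  have hL : ∀ a : Fin (n + 1), HasFDerivAt (fun z : Cn (n + 1) => lmShift ξ z a)
      (Fin.cases (motive := fun _ => Cn (n + 1) →L[ℂ] ℂ)
        (lmProj 0 + (fderiv ℂ ξ (lmTl y)).comp lmTlL) (fun b => lmProj b.succ) a) y := by
    intro a
    refine Fin.cases ?_ (fun b => ?_) a
    · simp only [lmShift_apply_zero, Fin.cases_zero]
      exact (lmProj_hasFDerivAt 0 y).add (hξ.hasFDerivAt.comp y hT)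
    · simp only [lmShift, lmCs_apply_succ, Fin.cases_succ, lmTl_apply]
      exact lmProj_hasFDerivAt b.succ y
  rw [lmJac_of_hasFDerivAt hL, Matrix.det_succ_column_zero, Finset.sum_eq_single 0]
  · have h1 : (Matrix.of fun a b => (Fin.cases (motive := fun _ => Cn (n + 1) →L[ℂ] ℂ)
        (lmProj 0 + (fderiv ℂ ξ (lmTl y)).comp lmTlL) (fun b => lmProj b.succ) a)
          (Pi.single b 1)).submatrix (Fin.succAbove 0) Fin.succ = (1 : Matrix (Fin n) (Fin n) ℂ) := by
      ext a b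
      by_cases h : a = b
      · subst h
        simp [lmProj_apply]
      · have h' : a.succ ≠ b.succ := fun h' => h (Fin.succ_injective _ h')
        simp [lmProj_apply, Matrix.one_apply_ne h, Pi.single_eq_of_ne h']
    rw [h1]
    simp [lmProj_apply, lmTlL_single_zero]
  · intro b _ hb
    obtain ⟨c, rfl⟩ := Fin.exists_succ_eq.2 hb
    simp [lmProj_apply]
  · simp

end lift

section cover

/-- the strict derivative as an equivalence. -/
theorem lm_strict {φ : Cn n → Cn n} (hφ : AnalyticAt ℂ φ 0) (hd : (fderiv ℂ φ 0).det ≠ 0) :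
    HasStrictFDerivAt φ
      (((fderiv ℂ φ 0).toContinuousLinearEquivOfDetNeZero hd : Cn n ≃L[ℂ] Cn n) : Cn n →L[ℂ] Cn n) 0 := by
  rw [ContinuousLinearMap.coe_toContinuousLinearEquivOfDetNeZero]
  exact hφ.hasStrictFDerivAt

/-- LM-E4. -/
theorem lm_cover_chg {φ : Cn n → Cn n} (hφ : AnalyticAt ℂ φ 0) (h0 : φ 0 = 0)
    (hd : (fderiv ℂ φ 0).det ≠ 0) {U : Set (Cn n)} (hU : U ∈ 𝓝 (0 : Cn n)) : φ '' U ∈ 𝓝 (0 : Cn n) := by
  have h1 := (lm_strict hφ hd).map_nhds_eq_of_equiv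
  rw [h0] at h1
  rw [← h1]
  exact Filter.image_mem_map hU

/-- LM-E4. -/
theorem lm_chg_nhd {φ : Cn n → Cn n} (hφ : AnalyticAt ℂ φ 0) (h0 : φ 0 = 0)
    (hd : (fderiv ℂ φ 0).det ≠ 0) {N : Set (Cn n)} (hN : N ∈ 𝓝 (0 : Cn n)) :
    ∃ N' ∈ 𝓝 (0 : Cn n), MeasurableSet N' ∧ AnalyticOnNhd ℂ φ N' ∧ InjOn φ N' ∧ MapsTo φ N' N := by
  have hs := lm_strict hφ hd
  have h1 : (hs.toOpenPartialHomeomorph φ).source ∈ 𝓝 (0 : Cn n) :=
    (hs.toOpenPartialHomeomorph φ).open_source.mem_nhds hs.mem_toOpenPartialHomeomorph_source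
  have h2 : {y | AnalyticAt ℂ φ y} ∈ 𝓝 (0 : Cn n) := hφ.eventually_analyticAt
  have h3 : φ ⁻¹' N ∈ 𝓝 (0 : Cn n) := hφ.continuousAt.preimage_mem_nhds (by rwa [h0])
  obtain ⟨N', hN', hop, h0'⟩ := _root_.mem_nhds_iff.1 (Filter.inter_mem (Filter.inter_mem h1 h2) h3)
  refine ⟨N', hop.mem_nhds h0', hop.measurableSet, fun y hy => (hN' hy).1.2, ?_,
    fun y hy => (hN' hy).2⟩
  have hinj : InjOn φ (hs.toOpenPartialHomeomorph φ).source := by
    have := (hs.toOpenPartialHomeomorph φ).injOn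
    rwa [hs.toOpenPartialHomeomorph_coe] at this
  exact hinj.mono fun y hy => (hN' hy).1.1

/-- LM-E4. -/
theorem lm_cover_pow {k : Fin n → ℕ} (hk : ∀ i, 0 < k i) {U : Set (Cn n)} (hU : U ∈ 𝓝 (0 : Cn n)) :
    lmPw k '' U ∈ 𝓝 (0 : Cn n) := by
  obtain ⟨ε, hε, hεU⟩ := Metric.mem_nhds_iff.1 hU
  have h1 : ∀ᶠ x : Cn n in 𝓝 0, ∀ i, ‖x i‖ < ε ^ k i := by
    refine Filter.eventually_all.2 fun i => ?_
    have hc : ContinuousAt (fun x : Cn n => ‖x i‖) 0 := (continuous_apply i).norm.continuousAt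
    have : (fun x : Cn n => ‖x i‖) 0 < ε ^ k i := by
      simpa using pow_pos hε (k i)
    exact hc.eventually_lt continuousAt_const this
  refine Filter.mem_of_superset h1 ?_
  intro x hx
  refine ⟨fun i => (x i) ^ ((k i : ℂ)⁻¹), hεU ?_, ?_⟩
  · rw [mem_ball_zero_iff, pi_norm_lt_iff hε]
    intro i
    have h2 : ‖(x i) ^ ((k i : ℂ)⁻¹)‖ ^ k i = ‖x i‖ := by
      rw [← norm_pow, Complex.cpow_nat_inv_pow _ (hk i).ne']
    refine lt_of_pow_lt_pow_left₀ (k i) hε.le ?_
    rw [h2]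
    exact hx i
  · funext i
    exact Complex.cpow_nat_inv_pow _ (hk i).ne'

/-- LM-E5. -/
theorem lm_cover_blow {i j : Fin n} (hij : i ≠ j) {U : ℂ → Set (Cn n)} (hU : ∀ τ, U τ ∈ 𝓝 (0 : Cn n))
    {U' : Set (Cn n)} (hU' : U' ∈ 𝓝 (0 : Cn n)) :
    ∃ Θ : Finset ℂ, (⋃ τ ∈ Θ, lmBl i j τ '' U τ) ∪ lmBl j i 0 '' U' ∈ 𝓝 (0 : Cn n) := by
  classical
  obtain ⟨ε, hε, hεU⟩ := Metric.mem_nhds_iff.1 hU'
  have hδ : ∀ τ, ∃ δ > 0, ball (0 : Cn n) δ ⊆ U τ := fun τ => Metric.mem_nhds_iff.1 (hU τ)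
  choose δ hδ0 hδU using hδ
  obtain ⟨Θ, -, hΘ⟩ := (isCompact_closedBall (0 : ℂ) (1 / ε)).elim_nhds_subcover
    (fun τ => ball τ (δ τ)) (fun τ _ => ball_mem_nhds τ (hδ0 τ))
  refine ⟨Θ, ?_⟩
  have h1 : ∀ᶠ x : Cn n in 𝓝 0, x ∈ ball (0 : Cn n) ε ∧ ∀ τ ∈ Θ, x ∈ ball (0 : Cn n) (δ τ) :=
    Filter.Eventually.and (ball_mem_nhds 0 hε)
      ((Finset.eventually_all Θ).2 fun τ _ => ball_mem_nhds 0 (hδ0 τ))
  refine Filter.mem_of_superset h1 ?_
  rintro x ⟨hxε, hxΘ⟩
  by_cases hc : x j ≠ 0 ∧ ‖x i‖ ≤ 1 / ε * ‖x j‖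
  · obtain ⟨hj, hle⟩ := hc
    left
    have hmem : x i / x j ∈ closedBall (0 : ℂ) (1 / ε) := by
      rw [mem_closedBall_zero_iff, norm_div, div_le_iff₀ (norm_pos_iff.2 hj)]
      exact hle
    obtain ⟨τ, hτ, hτx⟩ := Set.mem_iUnion₂.1 (hΘ hmem)
    refine Set.mem_iUnion₂.2 ⟨τ, hτ, Function.update x i (x i / x j - τ), hδU τ ?_, ?_⟩
    · rw [mem_ball_zero_iff, pi_norm_lt_iff (hδ0 τ)]
      intro a
      by_cases ha : a = i
      · subst ha
        rw [Function.update_self]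
        rwa [mem_ball_iff_norm] at hτx
      · rw [Function.update_of_ne ha]
        have := hxΘ τ hτ
        rw [mem_ball_zero_iff, pi_norm_lt_iff (hδ0 τ)] at this
        exact this a
    · funext a
      by_cases ha : a = i
      · subst ha
        rw [lmBl_apply_self, Function.update_self, Function.update_of_ne hij.symm]
        field_simp
        ring
      · rw [lmBl_apply_of_ne ha, Function.update_of_ne ha]
  · right
    by_cases hi : x i = 0
    · have hj : x j = 0 := by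
        by_contra hj
        exact hc ⟨hj, by rw [hi, norm_zero]; positivity⟩
      refine ⟨x, hεU hxε, ?_⟩
      funext a
      by_cases ha : a = j
      · subst ha
        rw [lmBl_apply_self, hj]
        simp
      · rw [lmBl_apply_of_ne ha]
    · refine ⟨Function.update x j (x j / x i), hεU ?_, ?_⟩
      · rw [mem_ball_zero_iff, pi_norm_lt_iff hε]
        intro a
        by_cases ha : a = j
        · subst ha
          rw [Function.update_self, norm_div, div_lt_iff₀ (norm_pos_iff.2 hi)]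
          by_cases hj : x a = 0
          · rw [hj, norm_zero]
            exact mul_pos hε (norm_pos_iff.2 hi)
          · have h2 : 1 / ε * ‖x a‖ < ‖x i‖ := by
              by_contra h
              exact hc ⟨hj, not_lt.1 h⟩
            rw [div_mul_eq_mul_div, one_mul, div_lt_iff₀ hε] at h2
            linarith
        · rw [Function.update_of_ne ha]
          rw [mem_ball_zero_iff, pi_norm_lt_iff hε] at hxε
          exact hxε a
      · funext a
        by_cases ha : a = j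
        · subst ha
          rw [lmBl_apply_self, Function.update_self, Function.update_of_ne hij]
          field_simp
          ring
        · rw [lmBl_apply_of_ne ha, Function.update_of_ne ha]

end cover

end Claimed.Agent.R242
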