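/-
Row 242, package LM, file Mon: general properties of the predicate `LmMon`:
invariance under equality of germs, and the LIFT of a tree from `n` to `n + 1` variables.
Owner: helper119 (glue, proved).
-/
import Claimed.Agent.R242.LM.Elem

set_option autoImplicit false

open Filter Topology Set Metric

namespace Claimed.Agent.R242

variable {n : ℕ}

/-- `LmMon` only depends on the germ at `0`. -/
theorem LmMon.congr {F G : Cn n → ℂ} (h : LmMon F) (hFG : ∀ᶠ y in 𝓝 0, F y = G y) : LmMon G := by
  induction h generalizing G with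
  | base hb => exact LmMon.base (hb.congr hFG)
  | chg φ hφ h0 hd _ ih =>
    refine LmMon.chg φ hφ h0 hd (ih ?_)
    have ht : Tendsto φ (𝓝 0) (𝓝 0) := by
      have := hφ.continuousAt.tendsto
      rwa [h0] at this
    filter_upwards [ht.eventually hFG] with y hy
    rw [hy]
  | blow i j hij _ _ ih1 ih2 =>
    refine LmMon.blow i j hij (fun τ => ih1 τ ?_) (ih2 ?_)
    · filter_upwards [(tendsto_lmBl_zero i j τ).eventually hFG] with y hy
      rw [hy]
    · filter_upwards [(tendsto_lmBl_zero j i 0).eventually hFG] with y hy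
      rw [hy]
  | pow k hk _ ih =>
    refine LmMon.pow k hk (ih ?_)
    filter_upwards [(tendsto_lmPw_zero hk).eventually hFG] with y hy
    rw [hy]

/-- **Lift of a tree.**  `R` is a relation between germs in `n` and in `n + 1` variables which is stable
under pull-back by `ψ` resp. `ψ × id` and multiplication by a factor `J`; if `R h G` and `LmBase h` imply
`LmMon G`, then `R h G` and `LmMon h` imply `LmMon G`. -/
theorem lm_lift (R : (Cn n → ℂ) → (Cn (n + 1) → ℂ) → Prop)
    (hR : ∀ (h : Cn n → ℂ) (G : Cn (n + 1) → ℂ) (ψ : Cn n → Cn n) (J : Cn n → ℂ),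
      AnalyticAt ℂ ψ 0 → ψ 0 = 0 → AnalyticAt ℂ J 0 → R h G →
      R (fun x => h (ψ x) * J x) (fun y => G (lmLift ψ y) * J (lmTl y)))
    (hB : ∀ (h : Cn n → ℂ) (G : Cn (n + 1) → ℂ), R h G → LmBase h → LmMon G)
    {h : Cn n → ℂ} {G : Cn (n + 1) → ℂ} (hh : LmMon h) (hRG : R h G) : LmMon G := by
  induction hh generalizing G with
  | base hb => exact hB _ _ hRG hb
  | chg φ hφ h0 hd _ ih =>
    have hJ : AnalyticAt ℂ (fun x => (fderiv ℂ φ x).det) 0 := by
      have h1 : AnalyticAt ℂ (fun x => fderiv ℂ φ x) 0 := hφ.fderiv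
      have h2 : ∀ x, (fderiv ℂ φ x).det
          = (Matrix.of fun a b => fderiv ℂ φ x (Pi.single b 1) a).det := by
        intro x
        rw [ContinuousLinearMap.det, ← LinearMap.det_toMatrix']
        congr 1
      simp only [h2, Matrix.det_apply']
      refine Finset.analyticAt_fun_sum _ fun σ _ => analyticAt_const.mul
        (Finset.analyticAt_fun_prod _ fun i _ => ?_)
      exact (((ContinuousLinearMap.proj (R := ℂ) (φ := fun _ : Fin n => ℂ) (σ i)).comp
        (ContinuousLinearMap.apply ℂ (Cn n) (Pi.single i 1))).analyticAt (fderiv ℂ φ 0)).comp h1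
    have h1 := ih (hR _ G φ _ hφ h0 hJ hRG)
    have hφ' : AnalyticAt ℂ φ (lmTl (0 : Cn (n + 1))) := by simpa using hφ
    refine LmMon.chg (lmLift φ) (analyticAt_lmLift hφ') (lmLift_zero h0) ?_ (h1.congr ?_)
    · have := lmJac_lmLift (y := (0 : Cn (n + 1))) hφ'.differentiableAt
      rw [lmJac, lmJac] at this
      rw [this]
      simpa using hd
    · have h3 : ∀ᶠ y in 𝓝 (0 : Cn (n + 1)), DifferentiableAt ℂ φ (lmTl y) :=
        tendsto_lmTl_zero.eventually (hφ.eventually_analyticAt.mono fun x hx => hx.differentiableAt)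
      filter_upwards [h3] with y hy
      have := lmJac_lmLift hy
      rw [lmJac, lmJac] at this
      rw [this]
  | blow i j hij _ _ ih1 ih2 =>
    refine LmMon.blow i.succ j.succ (fun h' => hij (Fin.succ_injective _ h')) (fun τ => ?_) ?_
    · have := ih1 τ (hR _ G (lmBl i j τ) (fun x => x j) (analyticAt_lmBl i j τ 0) (lmBl_zero i j τ)
        (analyticAt_coord j 0) hRG)
      rw [lmLift_lmBl] at this
      exact this
    · have := ih2 (hR _ G (lmBl j i 0) (fun x => x i) (analyticAt_lmBl j i 0 0) (lmBl_zero j i 0)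
        (analyticAt_coord i 0) hRG)
      rw [lmLift_lmBl] at this
      exact this
  | pow k hk _ ih =>
    have := ih (hR _ G (lmPw k) (lmPwJ k) (analyticAt_lmPw k 0) (lmPw_zero hk) (analyticAt_lmPwJ k 0) hRG)
    rw [lmLift_lmPw] at this
    refine LmMon.pow (Fin.cons 1 k : Fin (n + 1) → ℕ) ?_ ?_
    · intro i
      refine Fin.cases ?_ (fun b => ?_) i
      · simp
      · simpa using hk b
    · simpa only [lmPwJ_cons] using this

end Claimed.Agent.R242
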