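/-
Row 242, package LM, file Reg: expansion in the distinguished variable `t = y 0`, regularity of order `d`,
Tschirnhausen shift.      Owner of the statements: helper119.
Notation: `y = lmCs t x`, `x = lmTl y`, `lmNF d c u y = ∑_{k<d} c k x * t^k + t^d * u y`.

LEAVES
* LM-R1 : `analyticAt_lmNF`, `lm_taylor`, `lm_reg_of_coeff`, `lm_reg_exists`, `lm_reg_of_frequently`.
    `lm_taylor`: induction on `d`; step: `u y - u (lmCs 0 (lmTl y))` vanishes on `{y 0 = 0}`, divide by the linear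
    form `y 0` (`Claimed.Agent.R269.SCV.exists_eq_mul_of_vanishing_linear` with
    `ℓ = ContinuousLinearMap.proj 0`, `v = Pi.single 0 1`), new coefficient `c d x = u (lmCs 0 x)`.
    `lm_reg_of_coeff`: `d'` = least `k` with `a k 0 ≠ 0`; regroup
    `lmNF d a u = ∑_{k<d'} a k x t^k + t^d' (∑_{d'≤k<d} a k x t^(k-d') + t^(d-d') u)`; coefficients `k ≥ d'` of the
    new `c` are set to `0`.
    `lm_reg_exists`: `lm_taylor` at order `d`; if all `c k 0 = 0` (`k < d`) then `g (lmCs t 0) = t^d * u (lmCs t 0)`.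
    `lm_reg_of_frequently`: `analyticOrderAt (fun t => g (lmCs t 0)) 0 = N < ⊤`, apply `lm_reg_exists` with
    `d = N + 1` (`natCast_le_analyticOrderAt`).
* LM-R2 : `lm_shift_reg` (one-variable polynomial argument: the coefficient of `t^(d-1)` of
    `∑_{k<d} p_k (t+τ)^k + p_d (t+τ)^d` is `p_{d-1} + d τ p_d = d τ p_d ≠ 0`, so this polynomial is not
    `t^d * r t`; then `lm_reg_exists`).
* LM-R3 : `lmD_lmNF`, `lmD_iter_lmNF` (differentiate the normal form; `fderiv` of `c k ∘ lmTl` in the direction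
    `Pi.single 0 1` is `0`; `Filter.EventuallyEq.fderiv`).
* LM-R4 : `lmD_iter_shift` (chain rule: `fderiv (lmShift ξ) y (Pi.single 0 1) = Pi.single 0 1`),
    `lm_implicit` (inverse function theorem for `Φ y = lmCs (w y) (lmTl y)`; analytic local inverse exactly as in
    `Claimed.Agent.R269.SCV.exists_eq_mul_of_vanishing`: `ContDiffAt.to_localInverse`, `.analyticAt`;
    `ξ x = Ψ (lmCs 0 x) 0`).
* LM-R5 : `lm_tschirn` from R1, R3, R4:  `w = lmD^[d-1] g = (d-1)! c_{d-1}(x) + t U`, `ξ` from `lm_implicit`,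
    `g' = g ∘ lmShift ξ`; `g' (lmCs t 0) = g (lmCs t 0)`; expansion of `g'` by `lm_taylor`, its coefficients vanish
    at `0` and `u' 0 ≠ 0` because `g (lmCs t 0) = t^d * unit` (compare: if `∑_{k<d} p_k t^k + t^d r₁ t = t^d r₂ t` near `0`
    with `r₂ 0 ≠ 0` then all `p_k = 0` and `r₁ 0 = r₂ 0`); `(d-1)! c'_{d-1}(x) = lmD^[d-1] g' (lmCs 0 x) =
    w (lmCs (ξ x) x) = 0`; finally replace `c' k` by `0` for `k ≥ d - 1`.  For `d = 0`: `ξ = 0`, `c = 0`.
-/
import Claimed.Agent.R242.LM.Elem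

set_option autoImplicit false

open Filter Topology Set Metric

namespace Claimed.Agent.R242

variable {n : ℕ}

/-- LM-R1. -/
theorem analyticAt_lmNF {d : ℕ} {c : ℕ → Cn n → ℂ} {u : Cn (n + 1) → ℂ}
    (hc : ∀ k, AnalyticAt ℂ (c k) 0) (hu : AnalyticAt ℂ u 0) : AnalyticAt ℂ (lmNF d c u) 0 := by
  unfold lmNF
  refine (Finset.analyticAt_fun_sum _ fun k _ => ?_).add (((analyticAt_coord 0 0).pow d).mul hu)
  have h1 : AnalyticAt ℂ (c k) (lmTl (0 : Cn (n + 1))) := by simpa using hc k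
  exact (h1.comp (analyticAt_lmTl 0)).mul ((analyticAt_coord 0 0).pow k)

/-- division by the distinguished variable -/
theorem lm_div_t {H : Cn (n + 1) → ℂ} (hH : AnalyticAt ℂ H 0)
    (hvan : ∀ᶠ y in 𝓝 0, y 0 = 0 → H y = 0) :
    ∃ H₁ : Cn (n + 1) → ℂ, AnalyticAt ℂ H₁ 0 ∧ ∀ᶠ y in 𝓝 0, H y = y 0 * H₁ y := by
  obtain ⟨H₁, h1, h2⟩ := Claimed.Agent.R269.SCV.exists_eq_mul_of_vanishing_linear
    (ContinuousLinearMap.proj (R := ℂ) (φ := fun _ : Fin (n + 1) => ℂ) 0)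
    (v := (Pi.single 0 1 : Cn (n + 1))) (by simp) hH (by simpa using hvan)
  exact ⟨H₁, h1, by simpa using h2⟩

theorem LmReg.congr {d : ℕ} {g g' : Cn (n + 1) → ℂ} (h : LmReg d g)
    (hgg : ∀ᶠ y in 𝓝 0, g y = g' y) : LmReg d g' := by
  obtain ⟨c, u, hc, hc0, hu, hu0, he⟩ := h
  exact ⟨c, u, hc, hc0, hu, hu0, by filter_upwards [he, hgg] with y h1 h2 using h2 ▸ h1⟩

theorem analyticAt_lmCs_line : AnalyticAt ℂ (fun t : ℂ => lmCs t (0 : Cn n)) 0 :=
  analyticAt_lmCs analyticAt_id analyticAt_const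

theorem tendsto_lmCs_line : Tendsto (fun t : ℂ => lmCs t (0 : Cn n)) (𝓝 0) (𝓝 0) := by
  have := (analyticAt_lmCs_line (n := n)).continuousAt.tendsto
  simpa using this

theorem analyticAt_lmCs_sec : AnalyticAt ℂ (fun x : Cn n => lmCs 0 x) 0 :=
  analyticAt_lmCs analyticAt_const analyticAt_id

theorem tendsto_lmCs_sec : Tendsto (fun x : Cn n => lmCs 0 x) (𝓝 0) (𝓝 0) := by
  have := (analyticAt_lmCs_sec (n := n)).continuousAt.tendsto
  simpa using this

theorem lmNF_line (d : ℕ) (c : ℕ → Cn n → ℂ) (u : Cn (n + 1) → ℂ) (t : ℂ) :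
    lmNF d c u (lmCs t 0) = ∑ k ∈ Finset.range d, c k 0 * t ^ k + t ^ d * u (lmCs t 0) := by
  simp [lmNF]

/-- a polynomial of degree `< d` which is divisible by `t ^ d` near `0` vanishes -/
theorem lm_poly_zero {d : ℕ} {p : ℕ → ℂ} {r : ℂ → ℂ} (hr : AnalyticAt ℂ r 0)
    (h : ∀ᶠ t in 𝓝 (0 : ℂ), ∑ k ∈ Finset.range d, p k * t ^ k = t ^ d * r t) :
    ∀ k < d, p k = 0 := by
  induction d generalizing p with
  | zero => intro k hk; omega
  | succ d ih =>
    have h0 : p 0 = 0 := by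
      have h1 := h.self_of_nhds
      rw [Finset.sum_range_succ'] at h1
      simpa using h1
    have h2 : ∀ᶠ t in 𝓝 (0 : ℂ), ∑ k ∈ Finset.range d, p (k + 1) * t ^ k = t ^ d * r t := by
      have ha1 : AnalyticAt ℂ (fun t : ℂ => ∑ k ∈ Finset.range d, p (k + 1) * t ^ k) 0 :=
        Finset.analyticAt_fun_sum _ fun k _ => analyticAt_const.mul (analyticAt_id.pow k)
      have ha2 : AnalyticAt ℂ (fun t : ℂ => t ^ d * r t) 0 := (analyticAt_id.pow d).mul hr
      rw [← ha1.frequently_eq_iff_eventually_eq ha2]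
      refine Eventually.frequently ?_
      filter_upwards [nhdsWithin_le_nhds h, self_mem_nhdsWithin] with t ht ht0
      rw [Finset.sum_range_succ', h0] at ht
      have h3 : t * ∑ k ∈ Finset.range d, p (k + 1) * t ^ k = t * (t ^ d * r t) := by
        rw [Finset.mul_sum]
        calc ∑ k ∈ Finset.range d, t * (p (k + 1) * t ^ k)
            = ∑ k ∈ Finset.range d, p (k + 1) * t ^ (k + 1) + 0 * t ^ 0 := by
              rw [zero_mul, add_zero]
              exact Finset.sum_congr rfl fun k _ => by ring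
          _ = t ^ (d + 1) * r t := ht
          _ = t * (t ^ d * r t) := by ring
      exact mul_left_cancel₀ ht0 h3
    intro k hk
    rcases k with _ | k
    · exact h0
    · exact ih h2 k (by omega)

/-- LM-R1.  Taylor expansion with remainder in the distinguished variable. -/
theorem lm_taylor {g : Cn (n + 1) → ℂ} (hg : AnalyticAt ℂ g 0) (d : ℕ) :
    ∃ (c : ℕ → Cn n → ℂ) (u : Cn (n + 1) → ℂ), (∀ k, AnalyticAt ℂ (c k) 0) ∧ AnalyticAt ℂ u 0 ∧
      ∀ᶠ y in 𝓝 0, g y = lmNF d c u y := by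
  induction d with
  | zero =>
    exact ⟨fun _ _ => 0, g, fun _ => analyticAt_const, hg, Eventually.of_forall fun y => by
      simp [lmNF]⟩
  | succ d ih =>
    obtain ⟨c, u, hc, hu, he⟩ := ih
    have hu0 : AnalyticAt ℂ (fun x : Cn n => u (lmCs 0 x)) 0 := by
      refine AnalyticAt.comp (g := u) (f := fun x : Cn n => lmCs 0 x) ?_
        (analyticAt_lmCs analyticAt_const analyticAt_id)
      simpa using hu
    have hu1 : AnalyticAt ℂ (fun y : Cn (n + 1) => u (lmCs 0 (lmTl y))) 0 := by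
      refine AnalyticAt.comp (g := fun x : Cn n => u (lmCs 0 x)) (f := lmTl) ?_ (analyticAt_lmTl 0)
      simpa using hu0
    obtain ⟨u₁, hu₁, he₁⟩ := lm_div_t (H := fun y => u y - u (lmCs 0 (lmTl y))) (hu.sub hu1)
      (Eventually.of_forall fun y hy => by
        have : lmCs 0 (lmTl y) = y := by rw [← hy]; exact lmCs_eta y
        rw [this, sub_self])
    refine ⟨Function.update c d (fun x => u (lmCs 0 x)), u₁, fun k => ?_, hu₁, ?_⟩
    · by_cases hk : k = d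
      · subst hk
        simpa using hu0
      · rw [Function.update_of_ne hk]
        exact hc k
    · filter_upwards [he, he₁] with y h1 h2
      rw [h1]
      unfold lmNF
      rw [Finset.sum_range_succ, Function.update_self]
      have h3 : ∑ k ∈ Finset.range d, Function.update c d (fun x => u (lmCs 0 x)) k (lmTl y) * y 0 ^ k
          = ∑ k ∈ Finset.range d, c k (lmTl y) * y 0 ^ k := by
        refine Finset.sum_congr rfl fun k hk => ?_
        rw [Function.update_of_ne (Finset.mem_range.1 hk).ne]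
      rw [h3]
      have h4 : u y = u (lmCs 0 (lmTl y)) + y 0 * u₁ y := by rw [← h2]; ring
      rw [h4]
      ring

/-- LM-R1. -/
theorem lm_reg_of_coeff {d k₀ : ℕ} {a : ℕ → Cn n → ℂ} {u : Cn (n + 1) → ℂ}
    (ha : ∀ k, AnalyticAt ℂ (a k) 0) (hu : AnalyticAt ℂ u 0) (hk : k₀ < d) (h0 : a k₀ 0 ≠ 0) :
    ∃ d', d' ≤ k₀ ∧ LmReg d' (lmNF d a u) := by
  classical
  have hex : ∃ k, a k 0 ≠ 0 := ⟨k₀, h0⟩
  obtain ⟨d', hd'⟩ : ∃ d', d' = Nat.find hex := ⟨_, rfl⟩
  have hd'k : d' ≤ k₀ := hd' ▸ Nat.find_min' hex h0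
  have hd'0 : a d' 0 ≠ 0 := hd' ▸ Nat.find_spec hex
  have hmin : ∀ k < d', a k 0 = 0 := fun k hk => by
    by_contra hne
    exact Nat.find_min hex (hd' ▸ hk) hne
  have hd'd : d' < d := lt_of_le_of_lt hd'k hk
  refine ⟨d', hd'k, fun k => if k < d' then a k else fun _ => 0,
    fun y => ∑ k ∈ Finset.Ico d' d, a k (lmTl y) * y 0 ^ (k - d') + y 0 ^ (d - d') * u y,
    fun k => ?_, fun k => ?_, ?_, ?_, Eventually.of_forall fun y => ?_⟩
  · beta_reduce
    split_ifs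
    · exact ha k
    · exact analyticAt_const
  · beta_reduce
    split_ifs with hk'
    · exact hmin k hk'
    · rfl
  · refine (Finset.analyticAt_fun_sum _ fun k _ => ?_).add
      (((analyticAt_coord 0 0).pow (d - d')).mul hu)
    have h1 : AnalyticAt ℂ (a k) (lmTl (0 : Cn (n + 1))) := by simpa using ha k
    exact (h1.comp (analyticAt_lmTl 0)).mul ((analyticAt_coord 0 0).pow (k - d'))
  · have h1 : ∑ k ∈ Finset.Ico d' d, a k (lmTl (0 : Cn (n + 1))) * (0 : Cn (n + 1)) 0 ^ (k - d')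
        = a d' 0 := by
      rw [Finset.sum_eq_single d']
      · simp
      · intro k hk hne
        have := (Finset.mem_Ico.1 hk).1
        have h2 : k - d' ≠ 0 := by omega
        simp [h2]
      · intro hn
        exact absurd (Finset.mem_Ico.2 ⟨le_rfl, hd'd⟩) hn
    have h2 : d - d' ≠ 0 := by omega
    beta_reduce
    rw [h1]
    simpa [h2] using hd'0
  · unfold lmNF
    rw [← Finset.sum_range_add_sum_Ico _ hd'd.le, mul_add, Finset.mul_sum]
    have h1 : ∑ k ∈ Finset.range d', (if k < d' then a k else fun _ => 0) (lmTl y) * y 0 ^ k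
        = ∑ k ∈ Finset.range d', a k (lmTl y) * y 0 ^ k :=
      Finset.sum_congr rfl fun k hk => by rw [if_pos (Finset.mem_range.1 hk)]
    have h2 : ∑ k ∈ Finset.Ico d' d, y 0 ^ d' * (a k (lmTl y) * y 0 ^ (k - d'))
        = ∑ k ∈ Finset.Ico d' d, a k (lmTl y) * y 0 ^ k := by
      refine Finset.sum_congr rfl fun k hk => ?_
      have h3 := (Finset.mem_Ico.1 hk).1
      have h4 : y 0 ^ k = y 0 ^ d' * y 0 ^ (k - d') := by rw [← pow_add]; congr 1; omega
      rw [h4]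
      ring
    have h3 : y 0 ^ d = y 0 ^ d' * y 0 ^ (d - d') := by rw [← pow_add]; congr 1; omega
    rw [h1, h2, h3]
    ring

/-- LM-R1. -/
theorem lm_reg_exists {g : Cn (n + 1) → ℂ} (hg : AnalyticAt ℂ g 0) (d : ℕ)
    (h : ¬ ∃ r : ℂ → ℂ, AnalyticAt ℂ r 0 ∧ ∀ᶠ t in 𝓝 0, g (lmCs t 0) = t ^ d * r t) :
    ∃ d', d' < d ∧ LmReg d' g := by
  obtain ⟨c, u, hc, hu, he⟩ := lm_taylor hg d
  by_cases hall : ∀ k < d, c k 0 = 0
  · exfalso
    apply h
    refine ⟨fun t => u (lmCs t 0), ?_, ?_⟩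
    · refine AnalyticAt.comp (g := u) (f := fun t : ℂ => lmCs t (0 : Cn n)) ?_ analyticAt_lmCs_line
      simpa using hu
    · filter_upwards [tendsto_lmCs_line.eventually he] with t ht
      rw [ht, lmNF_line, Finset.sum_eq_zero, zero_add]
      intro k hk
      rw [hall k (Finset.mem_range.1 hk), zero_mul]
  · push Not at hall
    obtain ⟨k₀, hk₀, hne⟩ := hall
    obtain ⟨d', hd', hreg⟩ := lm_reg_of_coeff hc hu hk₀ hne
    exact ⟨d', lt_of_le_of_lt hd' hk₀, hreg.congr (he.mono fun y hy => hy.symm)⟩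

/-- LM-R1. -/
theorem lm_reg_of_frequently {g : Cn (n + 1) → ℂ} (hg : AnalyticAt ℂ g 0)
    (h : ∃ᶠ t in 𝓝 (0 : ℂ), g (lmCs t 0) ≠ 0) : ∃ d, LmReg d g := by
  have hφ : AnalyticAt ℂ (fun t : ℂ => g (lmCs t 0)) 0 := by
    refine AnalyticAt.comp (g := g) (f := fun t : ℂ => lmCs t (0 : Cn n)) ?_ analyticAt_lmCs_line
    simpa using hg
  have htop : analyticOrderAt (fun t : ℂ => g (lmCs t 0)) 0 ≠ ⊤ := by
    rw [Ne, analyticOrderAt_eq_top]
    intro h0
    exact h (h0.mono fun t ht => not_not.2 ht)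
  obtain ⟨N, hN⟩ := ENat.ne_top_iff_exists.1 htop
  obtain ⟨d', -, hreg⟩ := lm_reg_exists hg (N + 1) (by
    rintro ⟨r, hr, he⟩
    have h1 : ((N + 1 : ℕ) : ℕ∞) ≤ analyticOrderAt (fun t : ℂ => g (lmCs t 0)) 0 :=
      (natCast_le_analyticOrderAt hφ).2 ⟨r, hr, by simpa using he⟩
    rw [← hN] at h1
    have h2 : N + 1 ≤ N := by exact_mod_cast h1
    omega)
  exact ⟨d', hreg⟩

/-- LM-R2.  After the translation `t ↦ t + τ`, `τ ≠ 0`, the order drops (no `t^(d-1)` term). -/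
theorem lm_shift_reg {d : ℕ} (hd : 0 < d) {b : ℕ → Cn n → ℂ} {w : Cn (n + 1) → ℂ} {τ : ℂ} (hτ : τ ≠ 0)
    (hb : ∀ k, AnalyticAt ℂ (b k) 0) (hbd : b (d - 1) 0 = 0) (hw : AnalyticAt ℂ w 0) (hw0 : w 0 ≠ 0)
    (hwc : ∀ t, w (lmCs t 0) = w 0) :
    ∃ d', d' < d ∧ LmReg d'
      (fun y => ∑ k ∈ Finset.range d, b k (lmTl y) * (y 0 + τ) ^ k + (y 0 + τ) ^ d * w y) := by
  have hG : AnalyticAt ℂ
      (fun y : Cn (n + 1) => ∑ k ∈ Finset.range d, b k (lmTl y) * (y 0 + τ) ^ k + (y 0 + τ) ^ d * w y)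
      0 := by
    have ht : AnalyticAt ℂ (fun y : Cn (n + 1) => y 0 + τ) 0 :=
      (analyticAt_coord 0 0).add analyticAt_const
    refine (Finset.analyticAt_fun_sum _ fun k _ => ?_).add ((ht.pow d).mul hw)
    have h1 : AnalyticAt ℂ (b k) (lmTl (0 : Cn (n + 1))) := by simpa using hb k
    exact (h1.comp (analyticAt_lmTl 0)).mul (ht.pow k)
  refine lm_reg_exists hG d ?_
  rintro ⟨r, hr, he⟩
  -- the polynomial
  obtain ⟨Q, hQ⟩ : ∃ Q : Polynomial ℂ, Q = ∑ k ∈ Finset.range d,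
      Polynomial.C (b k 0) * (Polynomial.X + Polynomial.C τ) ^ k +
        Polynomial.C (w 0) * (Polynomial.X + Polynomial.C τ) ^ d := ⟨_, rfl⟩
  have hQeval : ∀ t : ℂ, Q.eval t =
      ∑ k ∈ Finset.range d, b k 0 * (t + τ) ^ k + (t + τ) ^ d * w 0 := by
    intro t
    rw [hQ]
    simp [Polynomial.eval_finsetSum, mul_comm]
  have hQdeg : Q.natDegree < d + 1 := by
    rw [Nat.lt_succ_iff, hQ]
    have hp : ∀ k, ((Polynomial.X + Polynomial.C τ : Polynomial ℂ) ^ k).natDegree ≤ k := by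
      intro k
      refine (Polynomial.natDegree_pow_le).trans ?_
      rw [Polynomial.natDegree_X_add_C, mul_one]
    refine Polynomial.natDegree_add_le_of_degree_le
      (Polynomial.natDegree_sum_le_of_forall_le _ _ fun k hk => ?_) ?_
    · exact (Polynomial.natDegree_C_mul_le _ _).trans ((hp k).trans (Finset.mem_range.1 hk).le)
    · exact (Polynomial.natDegree_C_mul_le _ _).trans (hp d)
  have hQcoeff : Q.coeff (d - 1) = w 0 * (τ * d) := by
    rw [hQ, Polynomial.coeff_add, Polynomial.finsetSum_coeff, Polynomial.coeff_C_mul,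
      Polynomial.coeff_X_add_C_pow, Finset.sum_eq_zero, zero_add]
    · have h1 : d - (d - 1) = 1 := by omega
      have h2 : d.choose (d - 1) = d := by
        obtain ⟨e, rfl⟩ : ∃ e, d = e + 1 := ⟨d - 1, by omega⟩
        simp
      rw [h1, h2, pow_one]
    · intro k hk
      rw [Polynomial.coeff_C_mul, Polynomial.coeff_X_add_C_pow]
      have hk' := Finset.mem_range.1 hk
      by_cases hkd : k = d - 1
      · rw [hkd, hbd, zero_mul]
      · rw [Nat.choose_eq_zero_of_lt (by omega)]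
        simp
  have key : ∀ᶠ t in 𝓝 (0 : ℂ), ∑ k ∈ Finset.range d, Q.coeff k * t ^ k =
      t ^ d * (r t - Q.coeff d) := by
    filter_upwards [he] with t ht
    have h1 := Polynomial.eval_eq_sum_range' hQdeg t
    rw [Finset.sum_range_succ, hQeval] at h1
    simp only [lmTl_lmCs, lmCs_apply_zero, hwc] at ht
    rw [ht] at h1
    linear_combination -h1
  have h0 := lm_poly_zero (hr.sub analyticAt_const) key (d - 1) (by omega)
  rw [hQcoeff] at h0
  have hd' : (d : ℂ) ≠ 0 := Nat.cast_ne_zero.2 hd.ne'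
  exact (mul_ne_zero hw0 (mul_ne_zero hτ hd')) h0

/-- LM-R3. -/
theorem analyticAt_lmD {g : Cn (n + 1) → ℂ} {y : Cn (n + 1)} (hg : AnalyticAt ℂ g y) :
    AnalyticAt ℂ (lmD g) y :=
  ((ContinuousLinearMap.apply ℂ ℂ (Pi.single 0 1 : Cn (n + 1))).analyticAt (fderiv ℂ g y)).comp hg.fderiv

/-- LM-R3. -/
theorem lmD_congr {g g' : Cn (n + 1) → ℂ} (h : ∀ᶠ y in 𝓝 0, g y = g' y) :
    ∀ᶠ y in 𝓝 0, lmD g y = lmD g' y := by
  have h1 : g =ᶠ[𝓝 0] g' := h
  filter_upwards [Filter.EventuallyEq.fderiv (𝕜 := ℂ) h1] with y hy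
  rw [lmD, lmD, hy]

/-- the line in the direction of the distinguished variable -/
theorem lm_hasDerivAt_line {g : Cn (n + 1) → ℂ} {y : Cn (n + 1)} (hg : DifferentiableAt ℂ g y) :
    HasDerivAt (fun s : ℂ => g (y + s • (Pi.single 0 1 : Cn (n + 1)))) (lmD g y) 0 := by
  have h1 : HasDerivAt (fun s : ℂ => y + s • (Pi.single 0 1 : Cn (n + 1)))
      (Pi.single 0 1 : Cn (n + 1)) 0 := by
    have h2 : HasDerivAt (fun s : ℂ => s • (Pi.single 0 1 : Cn (n + 1)))
        ((1 : ℂ) • (Pi.single 0 1 : Cn (n + 1))) 0 := (hasDerivAt_id (0 : ℂ)).smul_const _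
    rw [one_smul] at h2
    exact h2.const_add y
  have h3 : HasFDerivAt g (fderiv ℂ g y) (y + (0 : ℂ) • (Pi.single 0 1 : Cn (n + 1))) := by
    rw [zero_smul, add_zero]
    exact hg.hasFDerivAt
  exact h3.comp_hasDerivAt (0 : ℂ) h1

theorem lmD_eq_of_hasDerivAt {g : Cn (n + 1) → ℂ} {y : Cn (n + 1)} (hg : DifferentiableAt ℂ g y)
    {a : ℂ} (h : HasDerivAt (fun s : ℂ => g (y + s • (Pi.single 0 1 : Cn (n + 1)))) a 0) :
    lmD g y = a :=
  (lm_hasDerivAt_line hg).unique h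

theorem lmTl_add_line (y : Cn (n + 1)) (s : ℂ) :
    lmTl (y + s • (Pi.single 0 1 : Cn (n + 1))) = lmTl y := by
  funext i
  simp [lmTl]

theorem lm_add_line_apply_zero (y : Cn (n + 1)) (s : ℂ) :
    (y + s • (Pi.single 0 1 : Cn (n + 1))) 0 = y 0 + s := by
  simp

theorem lmD_iter_congr {g g' : Cn (n + 1) → ℂ} (h : ∀ᶠ y in 𝓝 0, g y = g' y) (e : ℕ) :
    ∀ᶠ y in 𝓝 0, lmD^[e] g y = lmD^[e] g' y := by
  induction e generalizing g g' with
  | zero => exact h
  | succ e ih =>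
    rw [Function.iterate_succ_apply, Function.iterate_succ_apply]
    exact ih (lmD_congr h)

theorem analyticAt_lmD_iter {g : Cn (n + 1) → ℂ} {y : Cn (n + 1)} (hg : AnalyticAt ℂ g y) (e : ℕ) :
    AnalyticAt ℂ (lmD^[e] g) y := by
  induction e generalizing g with
  | zero => exact hg
  | succ e ih =>
    rw [Function.iterate_succ_apply]
    exact ih (analyticAt_lmD hg)

/-- LM-R3.  Derivative of the normal form. -/
theorem lmD_lmNF {d : ℕ} {c : ℕ → Cn n → ℂ} {u : Cn (n + 1) → ℂ}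
    (hc : ∀ k, AnalyticAt ℂ (c k) 0) (hu : AnalyticAt ℂ u 0) :
    ∀ᶠ y in 𝓝 0, lmD (lmNF (d + 1) c u) y =
      lmNF d (fun k x => ((k : ℂ) + 1) * c (k + 1) x) (fun y => ((d : ℂ) + 1) * u y + y 0 * lmD u y) y := by
  filter_upwards [(analyticAt_lmNF (d := d + 1) hc hu).eventually_analyticAt,
    hu.eventually_analyticAt] with y hy huy
  refine lmD_eq_of_hasDerivAt hy.differentiableAt ?_
  have hs : HasDerivAt (fun s : ℂ => y 0 + s) 1 0 := (hasDerivAt_id (0 : ℂ)).const_add (y 0)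
  have hpow : ∀ k : ℕ, HasDerivAt (fun s : ℂ => (y 0 + s) ^ k) ((k : ℂ) * y 0 ^ (k - 1)) 0 := by
    intro k
    have := hs.fun_pow k
    simpa using this
  have h1 : HasDerivAt (fun s : ℂ => ∑ k ∈ Finset.range (d + 1), c k (lmTl y) * (y 0 + s) ^ k +
      (y 0 + s) ^ (d + 1) * u (y + s • (Pi.single 0 1 : Cn (n + 1))))
      (∑ k ∈ Finset.range (d + 1), c k (lmTl y) * ((k : ℂ) * y 0 ^ (k - 1)) +
        ((((d + 1 : ℕ) : ℂ) * y 0 ^ (d + 1 - 1)) * u (y + (0 : ℂ) • (Pi.single 0 1 : Cn (n + 1))) +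
          (y 0 + 0) ^ (d + 1) * lmD u y)) 0 :=
    (HasDerivAt.fun_sum fun k _ => (hpow k).const_mul (c k (lmTl y))).add
      ((hpow (d + 1)).mul (lm_hasDerivAt_line huy.differentiableAt))
  have h2 : (fun s : ℂ => lmNF (d + 1) c u (y + s • (Pi.single 0 1 : Cn (n + 1)))) =
      fun s : ℂ => ∑ k ∈ Finset.range (d + 1), c k (lmTl y) * (y 0 + s) ^ k +
      (y 0 + s) ^ (d + 1) * u (y + s • (Pi.single 0 1 : Cn (n + 1))) := by
    funext s
    unfold lmNF
    rw [lmTl_add_line, lm_add_line_apply_zero]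
  rw [h2]
  convert h1 using 1
  unfold lmNF
  rw [Finset.sum_range_succ']
  simp only [zero_smul, add_zero, Nat.cast_zero, zero_mul, mul_zero, Nat.add_sub_cancel,
    Nat.cast_add, Nat.cast_one]
  have h3 : ∑ k ∈ Finset.range d, ((k : ℂ) + 1) * c (k + 1) (lmTl y) * y 0 ^ k =
      ∑ k ∈ Finset.range d, c (k + 1) (lmTl y) * (((k : ℂ) + 1) * y 0 ^ k) :=
    Finset.sum_congr rfl fun k _ => by ring
  rw [h3]
  ring

/-- LM-R3.  `∂_t^(d-1)` of a normal form of order `d = e + 1`. -/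
theorem lmD_iter_lmNF {e : ℕ} {g : Cn (n + 1) → ℂ} {c : ℕ → Cn n → ℂ} {u : Cn (n + 1) → ℂ}
    (hc : ∀ k, AnalyticAt ℂ (c k) 0) (hu : AnalyticAt ℂ u 0)
    (hg : ∀ᶠ y in 𝓝 0, g y = lmNF (e + 1) c u y) :
    ∃ U : Cn (n + 1) → ℂ, AnalyticAt ℂ U 0 ∧ U 0 = ((e + 1).factorial : ℂ) * u 0 ∧
      ∀ᶠ y in 𝓝 0, lmD^[e] g y = (e.factorial : ℂ) * c e (lmTl y) + y 0 * U y := by
  induction e generalizing g c u with
  | zero =>
    refine ⟨u, hu, by simp, ?_⟩
    filter_upwards [hg] with y hy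
    simp [hy, lmNF]
  | succ e ih =>
    have h1 : ∀ᶠ y in 𝓝 0, lmD g y = lmNF (e + 1) (fun k x => ((k : ℂ) + 1) * c (k + 1) x)
        (fun y => (((e + 1 : ℕ) : ℂ) + 1) * u y + y 0 * lmD u y) y := by
      filter_upwards [lmD_congr hg, lmD_lmNF (d := e + 1) hc hu] with y h2 h3
      rw [h2, h3]
    obtain ⟨U, hU, hU0, hUe⟩ := ih (g := lmD g) (c := fun k x => ((k : ℂ) + 1) * c (k + 1) x)
      (u := fun y => (((e + 1 : ℕ) : ℂ) + 1) * u y + y 0 * lmD u y)
      (fun k => analyticAt_const.mul (hc (k + 1)))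
      ((analyticAt_const.mul hu).add ((analyticAt_coord 0 0).mul (analyticAt_lmD hu))) h1
    refine ⟨U, hU, ?_, ?_⟩
    · rw [hU0, Nat.factorial_succ (e + 1)]
      push_cast
      simp
      ring
    · filter_upwards [hUe] with y hy
      rw [Function.iterate_succ_apply, hy, Nat.factorial_succ e]
      push_cast
      ring

/-- LM-R4.  `∂_t` commutes with the shear. -/
theorem lmD_iter_shift {g : Cn (n + 1) → ℂ} {ξ : Cn n → ℂ} (hg : AnalyticAt ℂ g 0)
    (hξ : AnalyticAt ℂ ξ 0) (hξ0 : ξ 0 = 0) (e : ℕ) :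
    ∀ᶠ y in 𝓝 0, lmD^[e] (fun y => g (lmShift ξ y)) y = lmD^[e] g (lmShift ξ y) := by
  have hS : AnalyticAt ℂ (lmShift ξ) 0 := analyticAt_lmShift (by simpa using hξ)
  have hS0 : lmShift ξ 0 = 0 := lmShift_zero hξ0
  have hSt : Tendsto (lmShift ξ) (𝓝 0) (𝓝 0) := by
    have := hS.continuousAt.tendsto
    rwa [hS0] at this
  induction e generalizing g with
  | zero => exact Eventually.of_forall fun y => rfl
  | succ e ih =>
    have h1 : ∀ᶠ y in 𝓝 0, lmD (fun y => g (lmShift ξ y)) y = lmD g (lmShift ξ y) := by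
      filter_upwards [hSt.eventually hg.eventually_analyticAt, hS.eventually_analyticAt]
        with y hy hSy
      have hd : DifferentiableAt ℂ (fun y => g (lmShift ξ y)) y :=
        (AnalyticAt.comp (g := g) (f := lmShift ξ) hy hSy).differentiableAt
      refine lmD_eq_of_hasDerivAt hd ?_
      have h2 : (fun s : ℂ => g (lmShift ξ (y + s • (Pi.single 0 1 : Cn (n + 1))))) =
          fun s : ℂ => g (lmShift ξ y + s • (Pi.single 0 1 : Cn (n + 1))) := by
        funext s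
        congr 1
        funext i
        refine Fin.cases ?_ (fun j => ?_) i
        · simp only [lmShift, lmTl_add_line, lm_add_line_apply_zero, lmCs_apply_zero]
          ring
        · simp [lmShift]
      rw [h2]
      exact lm_hasDerivAt_line hy.differentiableAt
    rw [Function.iterate_succ_apply]
    filter_upwards [lmD_iter_congr h1 e, ih (analyticAt_lmD hg)] with y h2 h3
    rw [h2, h3, Function.iterate_succ_apply]

/-- LM-R4.  Implicit function theorem. -/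
theorem lm_implicit {w : Cn (n + 1) → ℂ} {b : Cn n → ℂ} {U : Cn (n + 1) → ℂ} (hb : AnalyticAt ℂ b 0)
    (hb0 : b 0 = 0) (hU : AnalyticAt ℂ U 0) (hU0 : U 0 ≠ 0)
    (hw : ∀ᶠ y in 𝓝 0, w y = b (lmTl y) + y 0 * U y) :
    ∃ ξ : Cn n → ℂ, AnalyticAt ℂ ξ 0 ∧ ξ 0 = 0 ∧ ∀ᶠ x in 𝓝 0, w (lmCs (ξ x) x) = 0 := by
  obtain ⟨W, hWdef⟩ : ∃ W : Cn (n + 1) → ℂ, W = fun y => b (lmTl y) + y 0 * U y := ⟨_, rfl⟩
  have hW : AnalyticAt ℂ W 0 := by
    rw [hWdef]
    have h1 : AnalyticAt ℂ b (lmTl (0 : Cn (n + 1))) := by simpa using hb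
    exact (h1.comp (analyticAt_lmTl 0)).add ((analyticAt_coord 0 0).mul hU)
  have hW0 : W 0 = 0 := by simp [hWdef, hb0]
  obtain ⟨ℓ, hℓ⟩ : ∃ ℓ : Cn (n + 1) →L[ℂ] ℂ, ℓ = fderiv ℂ W 0 := ⟨_, rfl⟩
  have hℓe : ℓ (Pi.single 0 1) = U 0 := by
    have h1 : lmD W 0 = U 0 := by
      refine lmD_eq_of_hasDerivAt hW.differentiableAt ?_
      have h2 : (fun s : ℂ => W (0 + s • (Pi.single 0 1 : Cn (n + 1)))) =
          fun s : ℂ => b 0 + (0 + s) * U (0 + s • (Pi.single 0 1 : Cn (n + 1))) := by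
        funext s
        rw [hWdef]
        simp only [lmTl_add_line, lm_add_line_apply_zero, lmTl_zero, Pi.zero_apply]
      rw [h2]
      have h3 : HasDerivAt (fun s : ℂ => (0 : ℂ) + s) 1 0 := (hasDerivAt_id (0 : ℂ)).const_add 0
      have h4 : HasDerivAt
          (fun s : ℂ => b 0 + (0 + s) * U (0 + s • (Pi.single 0 1 : Cn (n + 1))))
          (1 * U (0 + (0 : ℂ) • (Pi.single 0 1 : Cn (n + 1))) + (0 + 0) * lmD U 0) 0 :=
        (h3.fun_mul (lm_hasDerivAt_line hU.differentiableAt)).const_add (b 0)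
      have h5 : 1 * U (0 + (0 : ℂ) • (Pi.single 0 1 : Cn (n + 1))) + (0 + 0) * lmD U 0 = U 0 := by
        simp
      rw [h5] at h4
      exact h4
    rw [hℓ]
    exact h1
  obtain ⟨v, hv⟩ : ∃ v : Cn (n + 1), v = (U 0)⁻¹ • (Pi.single 0 1 : Cn (n + 1)) := ⟨_, rfl⟩
  have hv1 : ℓ v = 1 := by rw [hv, map_smul, hℓe, smul_eq_mul, inv_mul_cancel₀ hU0]
  obtain ⟨Φ, hΦdef⟩ : ∃ Φ : Cn (n + 1) → Cn (n + 1), Φ = fun y => y + (W y - ℓ y) • v := ⟨_, rfl⟩
  have hΦan : AnalyticAt ℂ Φ 0 := by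
    rw [hΦdef]
    exact analyticAt_id.add ((hW.sub (ℓ.analyticAt 0)).smul analyticAt_const)
  have hΦ0 : Φ 0 = 0 := by simp [hΦdef, hW0]
  have hΦℓ : ∀ y, ℓ (Φ y) = W y := by
    intro y
    rw [hΦdef]
    simp only [map_add, map_smul, hv1, smul_eq_mul, mul_one]
    ring
  have hΦtl : ∀ y, lmTl (Φ y) = lmTl y := by
    intro y
    rw [hΦdef, hv]
    simp only [smul_smul]
    exact lmTl_add_line y _
  have hΦd : HasFDerivAt Φ
      ((ContinuousLinearEquiv.refl ℂ (Cn (n + 1)) : Cn (n + 1) ≃L[ℂ] Cn (n + 1)) :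
        Cn (n + 1) →L[ℂ] Cn (n + 1)) 0 := by
    have h1 : HasFDerivAt W ℓ 0 := by rw [hℓ]; exact hW.differentiableAt.hasFDerivAt
    have h3 : HasFDerivAt Φ (ContinuousLinearMap.id ℂ (Cn (n + 1)) + (ℓ - ℓ).smulRight v) 0 := by
      rw [hΦdef]
      exact (hasFDerivAt_id (0 : Cn (n + 1))).add ((h1.sub ℓ.hasFDerivAt).smul_const v)
    have h4 : ContinuousLinearMap.id ℂ (Cn (n + 1)) + (ℓ - ℓ).smulRight v =
        ((ContinuousLinearEquiv.refl ℂ (Cn (n + 1)) : Cn (n + 1) ≃L[ℂ] Cn (n + 1)) :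
          Cn (n + 1) →L[ℂ] Cn (n + 1)) := by
      ext y
      simp
    rw [← h4]
    exact h3
  have hcd : ContDiffAt ℂ ⊤ Φ 0 := hΦan.contDiffAt
  have hn : (⊤ : WithTop ℕ∞) ≠ 0 := by simp
  obtain ⟨Ψ, hΨdef⟩ : ∃ Ψ : Cn (n + 1) → Cn (n + 1), Ψ = hcd.localInverse hΦd hn := ⟨_, rfl⟩
  have hΨan : AnalyticAt ℂ Ψ 0 := by
    have := hcd.to_localInverse hΦd hn
    rw [hΦ0] at this
    rw [hΨdef]
    exact this.analyticAt
  have hstrict := hcd.hasStrictFDerivAt' hΦd hn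
  have hΨ0 : Ψ 0 = 0 := by
    have := hcd.localInverse_apply_image hΦd hn
    rw [hΦ0] at this
    rw [hΨdef]
    exact this
  have hright : ∀ᶠ u in 𝓝 0, Φ (Ψ u) = u := by
    have := hstrict.eventually_right_inverse
    rw [hΦ0] at this
    rw [hΨdef]
    exact this
  -- the section `ℓ = 0`
  obtain ⟨uu, huu⟩ : ∃ uu : Cn n → Cn (n + 1),
      uu = fun x => lmCs (-(ℓ (lmCs 0 x)) / U 0) x := ⟨_, rfl⟩
  have huuan : AnalyticAt ℂ uu 0 := by
    rw [huu]
    refine analyticAt_lmCs ?_ analyticAt_id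
    exact (((ℓ.analyticAt _).comp analyticAt_lmCs_sec).neg).div analyticAt_const hU0
  have huu0 : uu 0 = 0 := by simp [huu]
  have huutl : ∀ x, lmTl (uu x) = x := fun x => by rw [huu]; simp
  have huuℓ : ∀ x, ℓ (uu x) = 0 := by
    intro x
    have h1 : uu x = lmCs 0 x + (-(ℓ (lmCs 0 x)) / U 0) • (Pi.single 0 1 : Cn (n + 1)) := by
      rw [huu]
      funext i
      refine Fin.cases ?_ (fun j => ?_) i
      · simp
      · simp
    rw [h1, map_add, map_smul, hℓe, smul_eq_mul]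
    field_simp
    ring
  have huut : Tendsto uu (𝓝 0) (𝓝 0) := by
    have := huuan.continuousAt.tendsto
    rwa [huu0] at this
  have hΨuan : AnalyticAt ℂ (fun x => Ψ (uu x)) 0 := by
    refine AnalyticAt.comp (g := Ψ) (f := uu) ?_ huuan
    rw [huu0]; exact hΨan
  have hΨut : Tendsto (fun x => Ψ (uu x)) (𝓝 0) (𝓝 0) := by
    have := hΨuan.continuousAt.tendsto
    rwa [huu0, hΨ0] at this
  refine ⟨fun x => Ψ (uu x) 0, ?_, by simp [huu0, hΨ0], ?_⟩
  · exact (analyticAt_pi_iff.1 hΨuan) 0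
  · filter_upwards [huut.eventually hright, hΨut.eventually hw] with x h1 h2
    have h3 : lmTl (Ψ (uu x)) = x := by rw [← hΦtl, h1, huutl]
    have h4 : lmCs (Ψ (uu x) 0) x = Ψ (uu x) := by
      have h6 := lmCs_eta (Ψ (uu x))
      rwa [h3] at h6
    rw [h4, h2]
    have h5 : W (Ψ (uu x)) = 0 := by rw [← hΦℓ, h1, huuℓ]
    rw [hWdef] at h5
    exact h5

/-- LM-R5.  Tschirnhausen: after a shear the coefficient of `t^(d-1)` vanishes. -/
theorem lm_tschirn {d : ℕ} {g : Cn (n + 1) → ℂ} (hg : AnalyticAt ℂ g 0) (h : LmReg d g) :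
    ∃ (ξ : Cn n → ℂ) (c : ℕ → Cn n → ℂ) (u : Cn (n + 1) → ℂ), AnalyticAt ℂ ξ 0 ∧ ξ 0 = 0 ∧
      (∀ k, AnalyticAt ℂ (c k) 0) ∧ AnalyticAt ℂ u 0 ∧ u 0 ≠ 0 ∧ (∀ k, d ≤ k + 1 → ∀ x, c k x = 0) ∧
      ∀ᶠ y in 𝓝 0, g (lmShift ξ y) = lmNF d c u y := by
  obtain ⟨c, u, hc, hc0, hu, hu0, he⟩ := h
  rcases d with _ | e
  · refine ⟨fun _ => 0, fun _ _ => 0, u, analyticAt_const, rfl, fun _ => analyticAt_const, hu, hu0,
      fun _ _ _ => rfl, ?_⟩
    filter_upwards [he] with y hy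
    have h1 : lmShift (fun _ : Cn n => (0 : ℂ)) y = y := by
      simp only [lmShift, add_zero]
      exact lmCs_eta y
    rw [h1, hy]
    simp [lmNF]
  -- `d = e + 1`
  obtain ⟨U, hU, hU0, hUe⟩ := lmD_iter_lmNF hc hu he
  have hfac : ((e.factorial : ℕ) : ℂ) ≠ 0 := Nat.cast_ne_zero.2 e.factorial_ne_zero
  have hfac1 : (((e + 1).factorial : ℕ) : ℂ) ≠ 0 := Nat.cast_ne_zero.2 (e + 1).factorial_ne_zero
  obtain ⟨ξ, hξ, hξ0, hξe⟩ := lm_implicit (w := lmD^[e] g)
    (b := fun x => (e.factorial : ℂ) * c e x) (U := U) (analyticAt_const.mul (hc e))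
    (by simp [hc0 e]) hU (by rw [hU0]; exact mul_ne_zero hfac1 hu0) hUe
  have hS : AnalyticAt ℂ (lmShift ξ) 0 := analyticAt_lmShift (by simpa using hξ)
  have hS0 : lmShift ξ 0 = 0 := lmShift_zero hξ0
  have hg' : AnalyticAt ℂ (fun y => g (lmShift ξ y)) 0 := by
    refine AnalyticAt.comp (g := g) (f := lmShift ξ) ?_ hS
    rw [hS0]; exact hg
  obtain ⟨c', u', hc', hu', he'⟩ := lm_taylor hg' (e + 1)
  -- the coefficient of `t ^ e` vanishes
  have hce : ∀ᶠ x in 𝓝 (0 : Cn n), c' e x = 0 := by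
    obtain ⟨U', -, -, hU'e⟩ := lmD_iter_lmNF hc' hu' he'
    filter_upwards [tendsto_lmCs_sec.eventually hU'e,
      tendsto_lmCs_sec.eventually (lmD_iter_shift hg hξ hξ0 e), hξe] with x h1 h2 h3
    rw [h2] at h1
    have h4 : lmShift ξ (lmCs 0 x) = lmCs (ξ x) x := by simp [lmShift]
    rw [h4, h3] at h1
    simp only [lmTl_lmCs, lmCs_apply_zero, zero_mul, add_zero] at h1
    exact (mul_eq_zero.1 h1.symm).resolve_left hfac
  -- comparison on the line `x = 0`
  have hul : AnalyticAt ℂ (fun t : ℂ => u (lmCs t 0)) 0 := by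
    refine AnalyticAt.comp (g := u) (f := fun t : ℂ => lmCs t (0 : Cn n)) ?_ analyticAt_lmCs_line
    simpa using hu
  have hul' : AnalyticAt ℂ (fun t : ℂ => u' (lmCs t 0)) 0 := by
    refine AnalyticAt.comp (g := u') (f := fun t : ℂ => lmCs t (0 : Cn n)) ?_ analyticAt_lmCs_line
    simpa using hu'
  have hline : ∀ᶠ t in 𝓝 (0 : ℂ), ∑ k ∈ Finset.range (e + 1), c' k 0 * t ^ k =
      t ^ (e + 1) * (u (lmCs t 0) - u' (lmCs t 0)) := by
    filter_upwards [tendsto_lmCs_line.eventually he, tendsto_lmCs_line.eventually he'] with t h1 h2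
    have h3 : lmShift ξ (lmCs t 0) = lmCs t 0 := by simp [lmShift, hξ0]
    rw [h3, h1, lmNF_line, lmNF_line, Finset.sum_eq_zero (fun k _ => by rw [hc0 k, zero_mul]),
      zero_add] at h2
    linear_combination -h2
  have hc'0 := lm_poly_zero (hul.sub hul') hline
  have hu'0 : u' 0 = u 0 := by
    have h1 : ∀ᶠ t in 𝓝 (0 : ℂ), u' (lmCs t 0) = u (lmCs t 0) := by
      rw [← hul'.frequently_eq_iff_eventually_eq hul]
      refine Eventually.frequently ?_
      filter_upwards [nhdsWithin_le_nhds hline, self_mem_nhdsWithin] with t ht ht0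
      rw [Finset.sum_eq_zero (fun k hk => by rw [hc'0 k (Finset.mem_range.1 hk), zero_mul])] at ht
      have h2 := (mul_eq_zero.1 ht.symm).resolve_left (pow_ne_zero _ ht0)
      exact (sub_eq_zero.1 h2).symm
    simpa using h1.self_of_nhds
  refine ⟨ξ, fun k => if k < e then c' k else fun _ => 0, u', hξ, hξ0, fun k => ?_, hu',
    by rw [hu'0]; exact hu0, fun k hk x => ?_, ?_⟩
  · beta_reduce
    split_ifs
    · exact hc' k
    · exact analyticAt_const
  · beta_reduce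
    rw [if_neg (by omega)]
  · filter_upwards [he', tendsto_lmTl_zero.eventually hce] with y h1 h2
    rw [h1]
    unfold lmNF
    beta_reduce
    rw [Finset.sum_range_succ, Finset.sum_range_succ, h2, if_neg (lt_irrefl e)]
    have h3 : ∑ k ∈ Finset.range e, (if k < e then c' k else fun _ => 0) (lmTl y) * y 0 ^ k =
        ∑ k ∈ Finset.range e, c' k (lmTl y) * y 0 ^ k :=
      Finset.sum_congr rfl fun k hk => by rw [if_pos (Finset.mem_range.1 hk)]
    rw [h3]

end Claimed.Agent.R242
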