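/-
Row 242, package LM, file Comb: the combinatorial part of the induction step.
Owner of the statements and of the glue: helper119.
Notation: `t = y 0`, `x = lmTl y`, `x^γ = lmMono γ x`.

Situation: `G = m(x) * (∑_{k<d} c_k(x) t^k + t^d u)` and (at a leaf of the tree of `h = lmH ..`) `m`, the nonzero `c_k`
(`k ∈ S`) and the nonzero differences `c_k^(e_k) - c_l^(e_l)` (`e_k = d!/(d-k)`) are `unit * monomial`.

LEAVES
* LM-C1 : `LmBase.comp_lmTl`, `lmNF_blA`, `lm_prep_A0`.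
    `lmNF_blA` is an identity for every `y`:  `x^((d-k)β) * x_j^k = x_j^d * x^((d-k)β')`, `β' = β - e_j`, `k ≤ d`
    (`lmMono_add`, `lmMono_single`, `(d-k) • β = (d-k) • β' + Pi.single j (d-k)`).
    `lm_prep_A0`: new data `m' x = m x * x j ^ (d+1)`, `a' = a`, `u' = u ∘ lmBl 0 j.succ 0`.
* LM-C2 : `lm_prep_Atau`: by `lmNF_blA` the function is `m'(x) * g₁ y`, `g₁` as in `lm_shift_reg` with
    `b k x = x^((d-k)β') * a k x`, `w = u ∘ lmBl 0 j.succ τ` (`w (lmCs t 0) = u 0` since `x j = 0`); then `hQ d'`.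
* LM-C3 : `lm_prep_B`: chart at infinity `x_j = t * x_j'`:
    `(x∘B)^γ = x'^γ * t^(γ j)`, `(d-k) β_j + k = d + (d-k)(β_j - 1)`; the function is
    `(v∘B * U) * x'^μ * t^(μ_j + d + 1)`, `U = u∘B + ∑_k x'^((d-k)β) t^((d-k)(β_j-1)) a_k(x∘B)`, `U 0 = u 0`.
* LM-C4 : `lm_comb_empty`, `lmRel_pull`.
* LM-C5 : `lm_comb_dat` (`lm_factor`, `lm_factor_prod`, `lm_comparable` applied to `c_k^(e_k) = v_k^(e_k) x^(e_k α_k)`; a finite
    nonempty chain has a least element).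
* LM-C6 : `lm_dat_prep`: power substitution `x_i = z_i^(d!)`: `c_k ∘ pw = v_k∘pw * z^(d! α_k)`, `d! α_k = (d-k) e_k α_k`
    (`(d - k) ∣ d!` for `k < d`), `β = e_k₀ α_k₀`, `a k = v_k∘pw * z^((d-k)(e_k α_k - β))` for `k ∈ S`, `0` otherwise,
    `m' = m∘pw * lmPwJ`, `u' = u ∘ lmPw (cons 1 ..)`.
-/
import Claimed.Agent.R242.LM.Mon
import Claimed.Agent.R242.LM.Reg

set_option autoImplicit false

open Filter Topology Set Metric

namespace Claimed.Agent.R242

variable {n : ℕ}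

/-- LM-C1. -/
theorem LmBase.comp_lmTl {m : Cn n → ℂ} (h : LmBase m) : LmBase (fun y : Cn (n + 1) => m (lmTl y)) := by
  obtain ⟨γ, u, hu, hu0, he⟩ := h
  refine ⟨Fin.cons 0 γ, fun y => u (lmTl y), ?_, by simpa using hu0, ?_⟩
  · have h1 : AnalyticAt ℂ u (lmTl (0 : Cn (n + 1))) := by simpa using hu
    exact h1.comp (analyticAt_lmTl 0)
  · filter_upwards [tendsto_lmTl_zero.eventually he] with y hy
    rw [hy, lmMono_cons, pow_zero, one_mul]

theorem lmTl_lmBl_zero_succ (j : Fin n) (τ : ℂ) (y : Cn (n + 1)) :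
    lmTl (lmBl 0 j.succ τ y) = lmTl y := by
  funext i
  rw [lmTl_apply, lmTl_apply, lmBl_apply_of_ne (Fin.succ_ne_zero i)]

theorem lmMono_smul_sub_single {β : Fin n → ℕ} {j : Fin n} (hj : 0 < β j) (e : ℕ) (x : Cn n) :
    lmMono (e • β) x = lmMono (e • (β - Pi.single j 1)) x * x j ^ e := by
  have h1 : e • β = e • (β - Pi.single j 1) + Pi.single j e := by
    funext i
    by_cases hi : i = j
    · subst hi
      simp only [Pi.smul_apply, Pi.add_apply, Pi.sub_apply, Pi.single_eq_same, smul_eq_mul]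
      obtain ⟨b, hb⟩ : ∃ b, β i = b + 1 := ⟨β i - 1, by omega⟩
      rw [hb]
      simp [mul_add]
    · simp [Pi.single_eq_of_ne hi]
  rw [h1, lmMono_add, lmMono_single]

/-- LM-C1.  The normal form in the chart `t = x_j (t' + τ)`. -/
theorem lmNF_blA (d : ℕ) {β : Fin n → ℕ} {j : Fin n} (hj : 0 < β j) (a : ℕ → Cn n → ℂ)
    (u : Cn (n + 1) → ℂ) (τ : ℂ) (y : Cn (n + 1)) :
    lmNF d (fun k x => lmMono ((d - k) • β) x * a k x) u (lmBl 0 j.succ τ y) =
      y j.succ ^ d * (∑ k ∈ Finset.range d,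
        (lmMono ((d - k) • (β - Pi.single j 1)) (lmTl y) * a k (lmTl y)) * (y 0 + τ) ^ k
          + (y 0 + τ) ^ d * u (lmBl 0 j.succ τ y)) := by
  unfold lmNF
  rw [lmTl_lmBl_zero_succ, lmBl_apply_self, mul_add (y j.succ ^ d), Finset.mul_sum]
  congr 1
  · refine Finset.sum_congr rfl fun k hk => ?_
    have hk' : k < d := Finset.mem_range.1 hk
    have h2 : y j.succ ^ d = y j.succ ^ (d - k) * y j.succ ^ k := by
      rw [← pow_add]; congr 1; omega
    beta_reduce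
    rw [lmMono_smul_sub_single hj, lmTl_apply, mul_pow, h2]
    ring
  · rw [mul_pow]; ring

/-- glue: `β = 0`, the order has dropped. -/
theorem lm_prep_zero {d : ℕ} (hQ : ∀ d' < d, LmQ n d') {G : Cn (n + 1) → ℂ} (h : LmPrep d 0 G) :
    LmMon G := by
  obtain ⟨m, a, u, hmb, hm, ha, hu, hu0, -, ⟨k₀, hk₀, hak⟩, hG⟩ := h
  obtain ⟨d', hd', hreg⟩ := lm_reg_of_coeff ha hu hk₀ hak
  have h1 := hQ d' (lt_of_le_of_lt hd' hk₀) m (lmNF d a u) hm hmb.frequently_ne
    (analyticAt_lmNF ha hu) hreg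
  refine h1.congr ?_
  filter_upwards [hG] with y hy
  rw [hy]
  simp [lmNF, lmMono_zero]

/-- LM-C1. -/
theorem lm_prep_A0 {d : ℕ} {β : Fin n → ℕ} {j : Fin n} (hj : 0 < β j) {G : Cn (n + 1) → ℂ}
    (h : LmPrep d β G) :
    LmPrep d (β - Pi.single j 1) (fun y => G (lmBl 0 j.succ 0 y) * y j.succ) := by
  obtain ⟨m, a, u, hmb, hm, ha, hu, hu0, had, hk₀, hG⟩ := h
  refine ⟨fun x => m x * x j ^ (d + 1), a, fun y => u (lmBl 0 j.succ 0 y), hmb.mul (lmBase_coord j _),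
    hm.mul ((analyticAt_coord j 0).pow _), ha, ?_, by
      show u (lmBl 0 j.succ 0 0) ≠ 0
      rwa [lmBl_zero], had, hk₀, ?_⟩
  · have h1 : AnalyticAt ℂ u (lmBl 0 j.succ 0 (0 : Cn (n + 1))) := by rwa [lmBl_zero]
    exact h1.comp (analyticAt_lmBl 0 j.succ 0 0)
  · filter_upwards [(tendsto_lmBl_zero 0 j.succ 0).eventually hG] with y hy
    rw [hy, lmNF_blA d hj, lmTl_lmBl_zero_succ]
    unfold lmNF
    simp only [add_zero, lmTl_apply]
    ring

/-- LM-C2. -/
theorem lm_prep_Atau {d : ℕ} (hQ : ∀ d' < d, LmQ n d') {β : Fin n → ℕ} {j : Fin n} (hj : 0 < β j)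
    {τ : ℂ} (hτ : τ ≠ 0) {G : Cn (n + 1) → ℂ} (h : LmPrep d β G) :
    LmMon (fun y => G (lmBl 0 j.succ τ y) * y j.succ) := by
  obtain ⟨m, a, u, hmb, hm, ha, hu, hu0, had, ⟨k₀, hk₀, -⟩, hG⟩ := h
  have hd : 0 < d := lt_of_le_of_lt (Nat.zero_le _) hk₀
  have hBl0 : lmBl 0 j.succ τ (0 : Cn (n + 1)) = 0 := lmBl_zero 0 j.succ τ
  have hTl : ∀ y : Cn (n + 1), lmTl (lmBl 0 j.succ τ y) = lmTl y := by
    intro y
    funext i
    rw [lmTl_apply, lmTl_apply, lmBl_apply_of_ne (Fin.succ_ne_zero i)]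
  have hb : ∀ k, AnalyticAt ℂ
      (fun x : Cn n => lmMono ((d - k) • (β - Pi.single j 1)) x * a k x) 0 :=
    fun k => (analyticAt_lmMono _ 0).mul (ha k)
  have hw : AnalyticAt ℂ (fun y => u (lmBl 0 j.succ τ y)) 0 := by
    have hu' : AnalyticAt ℂ u (lmBl 0 j.succ τ 0) := by rwa [hBl0]
    exact hu'.comp (analyticAt_lmBl 0 j.succ τ 0)
  have hwc : ∀ t : ℂ, u (lmBl 0 j.succ τ (lmCs t (0 : Cn n))) = u (lmBl 0 j.succ τ 0) := by
    intro t
    congr 1
    rw [hBl0]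
    funext i
    refine Fin.cases ?_ (fun b => ?_) i
    · rw [lmBl_apply_self, lmCs_apply_succ]
      simp
    · rw [lmBl_apply_of_ne (Fin.succ_ne_zero b), lmCs_apply_succ]
      rfl
  obtain ⟨d', hd', hreg⟩ := lm_shift_reg (n := n) hd
    (b := fun k x => lmMono ((d - k) • (β - Pi.single j 1)) x * a k x)
    (w := fun y => u (lmBl 0 j.succ τ y)) hτ hb (by simp only [had, mul_zero]) hw
    (by show u (lmBl 0 j.succ τ 0) ≠ 0; rw [hBl0]; exact hu0) hwc
  have hm' : AnalyticAt ℂ (fun x : Cn n => m x * x j ^ (d + 1)) 0 :=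
    hm.mul ((analyticAt_coord j 0).pow _)
  have hg1 : AnalyticAt ℂ (fun y : Cn (n + 1) => ∑ k ∈ Finset.range d,
      (lmMono ((d - k) • (β - Pi.single j 1)) (lmTl y) * a k (lmTl y)) * (y 0 + τ) ^ k
        + (y 0 + τ) ^ d * u (lmBl 0 j.succ τ y)) 0 := by
    have h0 : AnalyticAt ℂ (fun y : Cn (n + 1) => y 0 + τ) 0 :=
      (analyticAt_coord 0 0).add analyticAt_const
    refine (Finset.analyticAt_fun_sum _ fun k _ => ?_).add ((h0.pow d).mul hw)
    have h1 : AnalyticAt ℂ (fun x : Cn n => lmMono ((d - k) • (β - Pi.single j 1)) x * a k x)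
        (lmTl (0 : Cn (n + 1))) := by simpa using hb k
    exact (h1.comp (analyticAt_lmTl 0)).mul (h0.pow k)
  have h1 := hQ d' hd' (fun x => m x * x j ^ (d + 1)) _ hm'
    (hmb.mul (lmBase_coord j (d + 1))).frequently_ne hg1 hreg
  refine h1.congr ?_
  filter_upwards [(tendsto_lmBl_zero 0 j.succ τ).eventually hG] with y hy
  rw [hy, hTl, lmNF_blA d hj a u τ y, lmTl_apply]
  ring

theorem lmTl_lmBl_succ_zero (j : Fin n) (y : Cn (n + 1)) :
    lmTl (lmBl j.succ 0 0 y) = Function.update (lmTl y) j (y 0 * lmTl y j) := by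
  funext i
  by_cases h : i = j
  · subst h
    simp [lmBl_apply_self]
  · rw [Function.update_of_ne h, lmTl_apply,
      lmBl_apply_of_ne (fun h' => h (Fin.succ_injective _ h'))]
    rfl

theorem lmMono_update_mul (γ : Fin n → ℕ) (x : Cn n) (j : Fin n) (t : ℂ) :
    lmMono γ (Function.update x j (t * x j)) = lmMono γ x * t ^ γ j := by
  unfold lmMono
  have h : ∀ i, (Function.update x j (t * x j) i) ^ γ i
      = x i ^ γ i * (if i = j then t ^ γ j else 1) := by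
    intro i
    by_cases h : i = j
    · subst h
      simp [mul_pow, mul_comm]
    · simp [h]
  simp only [h, Finset.prod_mul_distrib, Finset.prod_ite_eq', Finset.mem_univ, if_true]

/-- the normal form in the chart at infinity. -/
theorem lmNF_blB (d : ℕ) {β : Fin n → ℕ} {j : Fin n} (hj : 0 < β j) (a : ℕ → Cn n → ℂ)
    (u : Cn (n + 1) → ℂ) (y : Cn (n + 1)) :
    lmNF d (fun k x => lmMono ((d - k) • β) x * a k x) u (lmBl j.succ 0 0 y) =
      y 0 ^ d * (u (lmBl j.succ 0 0 y) + ∑ k ∈ Finset.range d,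
        lmMono ((d - k) • β) (lmTl y) * y 0 ^ ((d - k) * (β j - 1))
          * a k (lmTl (lmBl j.succ 0 0 y))) := by
  have h0 : lmBl j.succ 0 0 y 0 = y 0 := lmBl_apply_of_ne (Fin.succ_ne_zero j).symm _ _ _
  unfold lmNF
  rw [h0, mul_add, add_comm, Finset.mul_sum]
  congr 1
  refine Finset.sum_congr rfl fun k hk => ?_
  have hk' : k < d := Finset.mem_range.1 hk
  have h1 : lmMono ((d - k) • β) (lmTl (lmBl j.succ 0 0 y))
      = lmMono ((d - k) • β) (lmTl y) * y 0 ^ ((d - k) * β j) := by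
    rw [lmTl_lmBl_succ_zero, lmMono_update_mul]
    simp
  have h2 : (d - k) * β j + k = d + (d - k) * (β j - 1) := by
    obtain ⟨b, hb⟩ : ∃ b, β j = b + 1 := ⟨β j - 1, by omega⟩
    rw [hb, Nat.add_sub_cancel, Nat.mul_succ]
    omega
  have h3 : y 0 ^ ((d - k) * β j) * y 0 ^ k = y 0 ^ d * y 0 ^ ((d - k) * (β j - 1)) := by
    rw [← pow_add, ← pow_add, h2]
  simp only [h1]
  linear_combination (lmMono ((d - k) • β) (lmTl y) * a k (lmTl (lmBl j.succ 0 0 y))) * h3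

/-- LM-C3. -/
theorem lm_prep_B {d : ℕ} {β : Fin n → ℕ} {j : Fin n} (hj : 0 < β j) {G : Cn (n + 1) → ℂ}
    (h : LmPrep d β G) : LmBase (fun y => G (lmBl j.succ 0 0 y) * y 0) := by
  obtain ⟨m, a, u, ⟨μ, v, hv, hv0, hm⟩, -, ha, hu, hu0, -, -, hG⟩ := h
  have hB := analyticAt_lmBl j.succ 0 0 (0 : Cn (n + 1))
  have hB0 : lmBl j.succ 0 0 (0 : Cn (n + 1)) = 0 := lmBl_zero _ _ _
  have hT : AnalyticAt ℂ (fun y : Cn (n + 1) => lmTl (lmBl j.succ 0 0 y)) 0 :=
    (analyticAt_lmTl _).comp hB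
  have hT0 : lmTl (lmBl j.succ 0 0 (0 : Cn (n + 1))) = 0 := by rw [hB0]; rfl
  have hTt : Tendsto (fun y : Cn (n + 1) => lmTl (lmBl j.succ 0 0 y)) (𝓝 0) (𝓝 0) := by
    have := hT.continuousAt.tendsto
    rwa [hT0] at this
  refine ⟨Fin.cons (μ j + d + 1) μ, fun y => v (lmTl (lmBl j.succ 0 0 y)) *
    (u (lmBl j.succ 0 0 y) + ∑ k ∈ Finset.range d,
        lmMono ((d - k) • β) (lmTl y) * y 0 ^ ((d - k) * (β j - 1))
          * a k (lmTl (lmBl j.succ 0 0 y))), ?_, ?_, ?_⟩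
  · have hv' : AnalyticAt ℂ v (lmTl (lmBl j.succ 0 0 (0 : Cn (n + 1)))) := by rwa [hT0]
    have hu' : AnalyticAt ℂ u (lmBl j.succ 0 0 (0 : Cn (n + 1))) := by rwa [hB0]
    refine (AnalyticAt.fun_comp (f := fun y : Cn (n + 1) => lmTl (lmBl j.succ 0 0 y)) hv' hT).mul
      ((AnalyticAt.fun_comp hu' hB).add (Finset.analyticAt_fun_sum _ fun k _ => ?_))
    have ha' : AnalyticAt ℂ (a k) (lmTl (lmBl j.succ 0 0 (0 : Cn (n + 1)))) := by
      rw [hT0]; exact ha k
    exact ((AnalyticAt.fun_comp (analyticAt_lmMono _ _) (analyticAt_lmTl 0)).mul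
      ((analyticAt_coord 0 0).pow _)).mul
      (AnalyticAt.fun_comp (f := fun y : Cn (n + 1) => lmTl (lmBl j.succ 0 0 y)) ha' hT)
  · have hs : ∑ k ∈ Finset.range d,
        lmMono ((d - k) • β) (lmTl (0 : Cn (n + 1))) * (0 : Cn (n + 1)) 0 ^ ((d - k) * (β j - 1))
          * a k (lmTl (lmBl j.succ 0 0 (0 : Cn (n + 1)))) = 0 := by
      refine Finset.sum_eq_zero fun k hk => ?_
      have hk' : k < d := Finset.mem_range.1 hk
      rw [lmMono_eq_zero (i := j) (by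
        simp only [Pi.smul_apply, smul_eq_mul]
        exact Nat.mul_pos (by omega) hj) (by simp)]
      simp
    show v (lmTl (lmBl j.succ 0 0 (0 : Cn (n + 1)))) * (u (lmBl j.succ 0 0 (0 : Cn (n + 1))) + _) ≠ 0
    rw [hs, add_zero, hT0, hB0]
    exact mul_ne_zero hv0 hu0
  · filter_upwards [(tendsto_lmBl_zero j.succ 0 0).eventually hG, hTt.eventually hm] with y h1 h2
    rw [h1, h2, lmNF_blB d hj, lmMono_cons, lmTl_lmBl_succ_zero, lmMono_update_mul]
    rw [← lmTl_lmBl_succ_zero]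
    ring

/-- glue: a prepared form is monomialisable (induction on `|β|`, blow-ups of `{t = x_j = 0}`). -/
theorem lm_prep {d : ℕ} (hQ : ∀ d' < d, LmQ n d') :
    ∀ (N : ℕ) (β : Fin n → ℕ) (G : Cn (n + 1) → ℂ), ∑ i, β i = N → LmPrep d β G → LmMon G := by
  intro N
  induction N with
  | zero =>
    intro β G hβ h
    have : β = 0 := by
      funext i
      exact (Finset.sum_eq_zero_iff.1 hβ) i (Finset.mem_univ i)
    subst this
    exact lm_prep_zero hQ h
  | succ N ih =>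
    intro β G hβ h
    obtain ⟨j, hj⟩ : ∃ j, 0 < β j := by
      by_contra hcon
      push Not at hcon
      have : ∑ i, β i = 0 := Finset.sum_eq_zero fun i _ => Nat.le_zero.1 (hcon i)
      omega
    refine LmMon.blow 0 j.succ (Fin.succ_ne_zero j).symm (fun τ => ?_) (LmMon.base (lm_prep_B hj h))
    by_cases hτ : τ = 0
    · subst hτ
      refine ih _ _ ?_ (lm_prep_A0 hj h)
      have h1 : ∑ i, β i = ∑ i, (β - Pi.single j 1 : Fin n → ℕ) i
          + ∑ i, (Pi.single j 1 : Fin n → ℕ) i := by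
        rw [← Finset.sum_add_distrib]
        refine Finset.sum_congr rfl fun i _ => ?_
        by_cases hi : i = j
        · subst hi
          simp only [Pi.sub_apply, Pi.single_eq_same]
          omega
        · simp [Pi.single_eq_of_ne hi]
      rw [Finset.sum_pi_single'] at h1
      simp only [Finset.mem_univ, if_true] at h1
      omega
    · exact lm_prep_Atau hQ hj hτ h

/-- LM-C4. -/
theorem lm_comb_empty {d : ℕ} {T : Finset (ℕ × ℕ)} {h : Cn n → ℂ} {G : Cn (n + 1) → ℂ}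
    (hr : LmRel d ∅ T h G) (hb : LmBase h) : LmBase G := by
  obtain ⟨m, c, u, hm, hc, hu, hu0, hcS, -, hh, hG⟩ := hr
  have hB : AnalyticAt ℂ (fun x => ∏ p ∈ T, (c p.1 x ^ lmE d p.1 - c p.2 x ^ lmE d p.2)) 0 :=
    Finset.analyticAt_fun_prod _ fun p _ => ((hc p.1).pow _).sub ((hc p.2).pow _)
  have hmb : LmBase m := by
    refine (lm_factor hm hB (hb.congr ?_)).1
    filter_upwards [hh] with x hx
    rw [hx, lmH, Finset.prod_empty, mul_one]
  have hc0 : ∀ᶠ y in 𝓝 (0 : Cn (n + 1)), ∀ k ∈ Finset.range d, c k (lmTl y) = 0 :=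
    (Filter.eventually_all_finset _).2 fun k _ =>
      tendsto_lmTl_zero.eventually (hcS k (Finset.notMem_empty k))
  refine ((hmb.comp_lmTl.mul (lmBase_coord 0 d)).mul (LmBase.of_unit hu hu0)).congr ?_
  filter_upwards [hG, hc0] with y hy hy0
  rw [hy, lmNF, Finset.sum_eq_zero fun k hk => by rw [hy0 k hk, zero_mul], zero_add]
  ring

/-- LM-C4.  `LmRel` is stable under pull-back. -/
theorem lmRel_pull {d : ℕ} {S : Finset ℕ} {T : Finset (ℕ × ℕ)} (h : Cn n → ℂ) (G : Cn (n + 1) → ℂ)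
    (ψ : Cn n → Cn n) (J : Cn n → ℂ) (hψ : AnalyticAt ℂ ψ 0) (h0 : ψ 0 = 0) (hJ : AnalyticAt ℂ J 0)
    (hr : LmRel d S T h G) :
    LmRel d S T (fun x => h (ψ x) * J x) (fun y => G (lmLift ψ y) * J (lmTl y)) := by
  obtain ⟨m, c, u, hm, hc, hu, hu0, hcS, hcT, hh, hG⟩ := hr
  have ht : Tendsto ψ (𝓝 0) (𝓝 0) := by
    have := hψ.continuousAt.tendsto
    rwa [h0] at this
  have hψ' : AnalyticAt ℂ ψ (lmTl (0 : Cn (n + 1))) := by simpa using hψ
  have hL : AnalyticAt ℂ (lmLift ψ) 0 := analyticAt_lmLift hψ'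
  have hL0 : lmLift ψ 0 = 0 := lmLift_zero h0
  have htL : Tendsto (lmLift ψ) (𝓝 0) (𝓝 0) := by
    have := hL.continuousAt.tendsto
    rwa [hL0] at this
  have comp0 : ∀ {f : Cn n → ℂ}, AnalyticAt ℂ f 0 → AnalyticAt ℂ (fun x => f (ψ x)) 0 := by
    intro f hf
    have hf' : AnalyticAt ℂ f (ψ 0) := by rwa [h0]
    exact hf'.comp hψ
  refine ⟨fun x => m (ψ x) * J x, fun k x => c k (ψ x), fun y => u (lmLift ψ y), (comp0 hm).mul hJ,
    fun k => comp0 (hc k), ?_, by show u (lmLift ψ 0) ≠ 0; rw [hL0]; exact hu0, fun k hk => ht.eventually (hcS k hk),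
    fun p h1 h2 h3 => ht.eventually (hcT p h1 h2 h3), ?_, ?_⟩
  · have hu' : AnalyticAt ℂ u (lmLift ψ 0) := by rwa [hL0]
    exact hu'.comp hL
  · filter_upwards [ht.eventually hh] with x hx
    rw [hx, lmH, lmH]
    ring
  · filter_upwards [htL.eventually hG] with y hy
    rw [hy, lmNF, lmNF, lmTl_lmLift, lmLift_apply_zero]
    ring

/-- Data at a leaf: all coefficients are `unit * monomial`, with a least normalised exponent. -/
def LmDat (d : ℕ) (S : Finset ℕ) (G : Cn (n + 1) → ℂ) : Prop :=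
  ∃ (m : Cn n → ℂ) (c : ℕ → Cn n → ℂ) (u : Cn (n + 1) → ℂ) (α : ℕ → Fin n → ℕ) (v : ℕ → Cn n → ℂ)
    (k₀ : ℕ), LmBase m ∧ AnalyticAt ℂ m 0 ∧ AnalyticAt ℂ u 0 ∧ u 0 ≠ 0 ∧
    (∀ k, k ∉ S → ∀ᶠ x in 𝓝 0, c k x = 0) ∧
    (∀ k ∈ S, AnalyticAt ℂ (v k) 0 ∧ v k 0 ≠ 0 ∧ ∀ᶠ x in 𝓝 0, c k x = v k x * lmMono (α k) x) ∧
    k₀ ∈ S ∧ (∀ l ∈ S, lmE d k₀ • α k₀ ≤ lmE d l • α l) ∧
    ∀ᶠ y in 𝓝 0, G y = m (lmTl y) * lmNF d c u y

/-- a finite nonempty chain has a least element -/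
theorem lm_exists_least {ι α : Type*} [Preorder α] (S : Finset ι) (hne : S.Nonempty) (f : ι → α)
    (hc : ∀ k ∈ S, ∀ l ∈ S, f k ≤ f l ∨ f l ≤ f k) : ∃ k₀ ∈ S, ∀ l ∈ S, f k₀ ≤ f l := by
  classical
  induction hne using Finset.Nonempty.cons_induction with
  | singleton a =>
    exact ⟨a, Finset.mem_singleton_self a, fun l hl => by rw [Finset.mem_singleton.1 hl]⟩
  | cons a s ha hs ih =>
    obtain ⟨k₁, hk₁, hmin⟩ := ih fun k hk l hl =>
      hc k (Finset.mem_cons_of_mem hk) l (Finset.mem_cons_of_mem hl)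
    rcases hc a (Finset.mem_cons_self a s) k₁ (Finset.mem_cons_of_mem hk₁) with h | h
    · refine ⟨a, Finset.mem_cons_self a s, fun l hl => ?_⟩
      rcases Finset.mem_cons.1 hl with rfl | hl
      · exact le_rfl
      · exact h.trans (hmin l hl)
    · refine ⟨k₁, Finset.mem_cons_of_mem hk₁, fun l hl => ?_⟩
      rcases Finset.mem_cons.1 hl with rfl | hl
      · exact h
      · exact hmin l hl

/-- LM-C5. -/
theorem lm_comb_dat {d : ℕ} {S : Finset ℕ} {T : Finset (ℕ × ℕ)} {h : Cn n → ℂ} {G : Cn (n + 1) → ℂ}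
    (hne : S.Nonempty) (hr : LmRel d S T h G) (hb : LmBase h) : LmDat d S G := by
  classical
  obtain ⟨m, c, u, hm, hc, hu, hu0, hcS, hcT, hh, hG⟩ := hr
  have hdiff : ∀ p : ℕ × ℕ, AnalyticAt ℂ (fun x => c p.1 x ^ lmE d p.1 - c p.2 x ^ lmE d p.2) 0 :=
    fun p => ((hc p.1).pow _).sub ((hc p.2).pow _)
  have hprodS : AnalyticAt ℂ (fun x => ∏ k ∈ S, c k x) 0 := Finset.analyticAt_fun_prod _ fun k _ => hc k
  have hprodT : AnalyticAt ℂ (fun x => ∏ p ∈ T, (c p.1 x ^ lmE d p.1 - c p.2 x ^ lmE d p.2)) 0 :=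
    Finset.analyticAt_fun_prod _ fun p _ => hdiff p
  have hb1 : LmBase (fun x => (m x * ∏ k ∈ S, c k x) *
      ∏ p ∈ T, (c p.1 x ^ lmE d p.1 - c p.2 x ^ lmE d p.2)) := hb.congr hh
  obtain ⟨hb2, hb3⟩ := lm_factor (hm.mul hprodS) hprodT hb1
  obtain ⟨hbm, hb4⟩ := lm_factor hm hprodS hb2
  have hbc := lm_factor_prod S c (fun k _ => hc k) hb4
  have hbT := lm_factor_prod T (fun p x => c p.1 x ^ lmE d p.1 - c p.2 x ^ lmE d p.2)
    (fun p _ => hdiff p) hb3
  have hex : ∀ k, ∃ (γ : Fin n → ℕ) (w : Cn n → ℂ), k ∈ S →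
      (AnalyticAt ℂ w 0 ∧ w 0 ≠ 0 ∧ ∀ᶠ x in 𝓝 0, c k x = w x * lmMono γ x) := by
    intro k
    by_cases hk : k ∈ S
    · obtain ⟨γ, w, h1, h2, h3⟩ := hbc k hk
      exact ⟨γ, w, fun _ => ⟨h1, h2, h3⟩⟩
    · exact ⟨0, 0, fun h => absurd h hk⟩
  choose α v hv using hex
  have hpow : ∀ k ∈ S, ∀ᶠ x in 𝓝 0,
      c k x ^ lmE d k = v k x ^ lmE d k * lmMono (lmE d k • α k) x := by
    intro k hk
    filter_upwards [(hv k hk).2.2] with x hx
    rw [hx, mul_pow, lmMono_smul]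
  have hcomp : ∀ k ∈ S, ∀ l ∈ S, lmE d k • α k ≤ lmE d l • α l ∨ lmE d l • α l ≤ lmE d k • α k := by
    intro k hk l hl
    refine lm_comparable (u := fun x => v k x ^ lmE d k) (v := fun x => v l x ^ lmE d l)
      ((hv k hk).1.pow _) (pow_ne_zero _ (hv k hk).2.1) ((hv l hl).1.pow _)
      (pow_ne_zero _ (hv l hl).2.1) ?_
    by_cases hp : (k, l) ∈ T
    · right
      refine (hbT (k, l) hp).congr ?_
      filter_upwards [hpow k hk, hpow l hl] with x h1 h2
      rw [← h1, ← h2]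
    · left
      filter_upwards [hpow k hk, hpow l hl, hcT (k, l) hk hl hp] with x h1 h2 h3
      rw [← h1, ← h2]
      exact h3
  obtain ⟨k₀, hk₀, hmin⟩ := lm_exists_least S hne (fun k => lmE d k • α k) hcomp
  exact ⟨m, c, u, α, v, k₀, hbm, hm, hu, hu0, hcS, hv, hk₀, hmin, hG⟩

/-- `unit * monomial` is stable under power substitutions -/
theorem LmBase.comp_lmPw {m : Cn n → ℂ} (h : LmBase m) {K : Fin n → ℕ} (hK : ∀ i, 0 < K i) :
    LmBase (fun x => m (lmPw K x)) := by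
  obtain ⟨γ, w, hw, hw0, he⟩ := h
  refine ⟨fun i => K i * γ i, fun x => w (lmPw K x), ?_, by
    show w (lmPw K 0) ≠ 0
    rwa [lmPw_zero hK], ?_⟩
  · have h1 : AnalyticAt ℂ w (lmPw K (0 : Cn n)) := by rwa [lmPw_zero hK]
    exact h1.comp (analyticAt_lmPw K 0)
  · filter_upwards [(tendsto_lmPw_zero hK).eventually he] with x hx
    rw [hx, lmMono_lmPw]

theorem lm_analyticAt_comp_lmPw {E : Type*} [NormedAddCommGroup E] [NormedSpace ℂ E] {f : Cn n → E}
    (hf : AnalyticAt ℂ f 0) {K : Fin n → ℕ} (hK : ∀ i, 0 < K i) :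
    AnalyticAt ℂ (fun x => f (lmPw K x)) 0 := by
  have h1 : AnalyticAt ℂ f (lmPw K (0 : Cn n)) := by rwa [lmPw_zero hK]
  exact h1.comp (analyticAt_lmPw K 0)

theorem lm_mul_lmE {d k : ℕ} (hk : k < d) : (d - k) * lmE d k = d.factorial :=
  Nat.mul_div_cancel' (Nat.dvd_factorial (by omega) (by omega))

/-- LM-C6. -/
theorem lm_dat_prep {d : ℕ} {S : Finset ℕ} {G : Cn (n + 1) → ℂ} (hS : ∀ k ∈ S, k + 1 < d)
    (h : LmDat d S G) :
    ∃ β : Fin n → ℕ, LmPrep d β (fun y => G (lmPw (Fin.cons 1 fun _ => d.factorial) y) *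
      lmPwJ (Fin.cons 1 fun _ => d.factorial) y) := by
  classical
  obtain ⟨m, c, u, α, v, k₀, hbm, hm, hu, hu0, hcS, hv, hk₀, hmin, hG⟩ := h
  have hK : ∀ i : Fin n, 0 < (fun _ => d.factorial : Fin n → ℕ) i := fun _ => d.factorial_pos
  have hK1 : ∀ i, 0 < (Fin.cons 1 (fun _ => d.factorial) : Fin (n + 1) → ℕ) i := by
    intro i
    refine Fin.cases ?_ (fun b => ?_) i
    · simp
    · simpa using d.factorial_pos
  refine ⟨lmE d k₀ • α k₀,
    fun x => m (lmPw (fun _ => d.factorial) x) * lmPwJ (fun _ => d.factorial) x,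
    fun k x => if k ∈ S then v k (lmPw (fun _ => d.factorial) x) *
      lmMono ((d - k) • (lmE d k • α k - lmE d k₀ • α k₀)) x else 0,
    fun y => u (lmPw (Fin.cons 1 fun _ => d.factorial) y), ?_, ?_, ?_, ?_, ?_, ?_, ?_, ?_⟩
  · exact (hbm.comp_lmPw hK).mul (lmBase_lmPwJ hK)
  · exact (lm_analyticAt_comp_lmPw hm hK).mul (analyticAt_lmPwJ _ 0)
  · intro k
    by_cases hk : k ∈ S
    · simp only [hk, if_true]
      exact (lm_analyticAt_comp_lmPw (hv k hk).1 hK).mul (analyticAt_lmMono _ 0)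
    · simp only [hk, if_false]
      exact analyticAt_const
  · exact lm_analyticAt_comp_lmPw hu hK1
  · show u (lmPw (Fin.cons 1 fun _ => d.factorial) 0) ≠ 0
    rw [lmPw_zero hK1]
    exact hu0
  · intro x
    have : d - 1 ∉ S := fun hmem => by
      have := hS _ hmem
      omega
    simp only [this, if_false]
  · refine ⟨k₀, by have := hS _ hk₀; omega, ?_⟩
    simp only [hk₀, if_true]
    rw [lmPw_zero hK, tsub_self, smul_zero, lmMono_zero, mul_one]
    exact (hv k₀ hk₀).2.1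
  · have e1 := (tendsto_lmPw_zero hK1).eventually hG
    have e2 : ∀ k ∈ Finset.range d, ∀ᶠ x in 𝓝 (0 : Cn n), c k (lmPw (fun _ => d.factorial) x) =
        lmMono ((d - k) • (lmE d k₀ • α k₀)) x *
          (if k ∈ S then v k (lmPw (fun _ => d.factorial) x) *
            lmMono ((d - k) • (lmE d k • α k - lmE d k₀ • α k₀)) x else 0) := by
      intro k hkd
      have hkd' : k < d := Finset.mem_range.1 hkd
      by_cases hk : k ∈ S
      · filter_upwards [(tendsto_lmPw_zero hK).eventually (hv k hk).2.2] with x hx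
        simp only [hk, if_true]
        have hexp : (fun i => d.factorial * α k i : Fin n → ℕ)
            = (d - k) • (lmE d k₀ • α k₀) + (d - k) • (lmE d k • α k - lmE d k₀ • α k₀) := by
          funext i
          have h1 : lmE d k₀ * α k₀ i ≤ lmE d k * α k i := by simpa using hmin k hk i
          simp only [Pi.add_apply, Pi.smul_apply, Pi.sub_apply, smul_eq_mul]
          rw [← Nat.mul_add, Nat.add_sub_cancel' h1, ← mul_assoc, lm_mul_lmE hkd']
        rw [hx, lmMono_lmPw, hexp, lmMono_add]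
        ring
      · filter_upwards [(tendsto_lmPw_zero hK).eventually (hcS k hk)] with x hx
        simp only [hk, if_false, mul_zero]
        exact hx
    have e3 := tendsto_lmTl_zero.eventually ((Filter.eventually_all_finset (Finset.range d)).2 e2)
    filter_upwards [e1, e3] with y h1 h3
    rw [h1, lmPwJ_cons]
    have hl : lmPw (Fin.cons 1 fun _ => d.factorial : Fin (n + 1) → ℕ) y
        = lmLift (lmPw fun _ => d.factorial) y := by rw [lmLift_lmPw]
    have hNF : lmNF d c u (lmPw (Fin.cons 1 fun _ => d.factorial) y)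
        = lmNF d (fun k x => lmMono ((d - k) • (lmE d k₀ • α k₀)) x *
          (if k ∈ S then v k (lmPw (fun _ => d.factorial) x) *
            lmMono ((d - k) • (lmE d k • α k - lmE d k₀ • α k₀)) x else 0))
          (fun y => u (lmPw (Fin.cons 1 fun _ => d.factorial) y)) y := by
      unfold lmNF
      rw [hl, lmTl_lmLift, lmLift_apply_zero]
      congr 1
      · exact Finset.sum_congr rfl fun k hk => by rw [h3 k hk]
      · show _ = y 0 ^ d * u (lmPw (Fin.cons 1 fun _ => d.factorial) y)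
        rw [hl]
    rw [hNF, hl, lmTl_lmLift]
    ring

/-- glue: the combinatorial step. -/
theorem lm_comb {d : ℕ} (hQ : ∀ d' < d, LmQ n d') {S : Finset ℕ} {T : Finset (ℕ × ℕ)}
    (hS : ∀ k ∈ S, k + 1 < d) {h : Cn n → ℂ} {G : Cn (n + 1) → ℂ} (hr : LmRel d S T h G)
    (hb : LmBase h) : LmMon G := by
  rcases S.eq_empty_or_nonempty with rfl | hne
  · exact LmMon.base (lm_comb_empty hr hb)
  · obtain ⟨β, hβ⟩ := lm_dat_prep hS (lm_comb_dat hne hr hb)
    refine LmMon.pow (Fin.cons 1 fun _ => d.factorial) ?_ (lm_prep hQ _ β _ rfl hβ)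
    intro i
    refine Fin.cases ?_ (fun b => ?_) i
    · simp
    · simpa using d.factorial_pos

end Claimed.Agent.R242
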