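/-
Row 242, package LM, file Ind: the induction (glue).  Owner: helper119.
`lm_all : ∀ n, LmAll n` : every nonzero analytic germ at `0 ∈ Cn n` is monomialisable.
-/
import Claimed.Agent.R242.LM.Comb

set_option autoImplicit false

open Filter Topology Set Metric

namespace Claimed.Agent.R242

variable {n : ℕ}

theorem analyticAt_lmH {d : ℕ} {S : Finset ℕ} {T : Finset (ℕ × ℕ)} {m : Cn n → ℂ} {c : ℕ → Cn n → ℂ}
    (hm : AnalyticAt ℂ m 0) (hc : ∀ k, AnalyticAt ℂ (c k) 0) : AnalyticAt ℂ (lmH d S T m c) 0 := by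
  unfold lmH
  exact (hm.mul (Finset.analyticAt_fun_prod _ fun k _ => hc k)).mul
    (Finset.analyticAt_fun_prod _ fun p _ => ((hc p.1).pow _).sub ((hc p.2).pow _))

/-- the induction step on `d`. -/
theorem lmQ_step (hn : LmAll n) (d : ℕ) (hQ : ∀ d' < d, LmQ n d') : LmQ n d := by
  intro m g hm hm0 hg hreg
  obtain ⟨ξ, c, u, hξ, hξ0, hc, hu, hu0, hcd, hnf⟩ := lm_tschirn hg hreg
  classical
  set S : Finset ℕ := (Finset.range d).filter (fun k => ∃ᶠ x in 𝓝 0, c k x ≠ 0) with hSdef
  set T : Finset (ℕ × ℕ) := (S ×ˢ S).filter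
    (fun p => ∃ᶠ x in 𝓝 0, c p.1 x ^ lmE d p.1 - c p.2 x ^ lmE d p.2 ≠ 0) with hTdef
  have hS : ∀ k ∈ S, k + 1 < d := by
    intro k hk
    rw [hSdef, Finset.mem_filter, Finset.mem_range] at hk
    by_contra hcon
    apply hk.2
    exact Eventually.of_forall fun x => by simpa using hcd k (by omega) x
  have hh : AnalyticAt ℂ (lmH d S T m c) 0 := analyticAt_lmH hm hc
  have hh0 : ∃ᶠ x in 𝓝 0, lmH d S T m c x ≠ 0 := by
    -- a product of three nonzero germs
    have h1 : ∃ᶠ x in 𝓝 0, ∏ k ∈ S, c k x ≠ 0 :=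
      lm_prod_frequently_ne S c (fun k _ => hc k) fun k hk => (Finset.mem_filter.1 hk).2
    have h2 : ∃ᶠ x in 𝓝 0, ∏ p ∈ T, (c p.1 x ^ lmE d p.1 - c p.2 x ^ lmE d p.2) ≠ 0 :=
      lm_prod_frequently_ne T (fun p x => c p.1 x ^ lmE d p.1 - c p.2 x ^ lmE d p.2)
        (fun p _ => ((hc p.1).pow _).sub ((hc p.2).pow _)) fun p hp => (Finset.mem_filter.1 hp).2
    have h3 := lm_prod_frequently_ne (Finset.univ : Finset (Fin 3))
      (fun i x => if i = 0 then m x else if i = 1 then ∏ k ∈ S, c k x else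
        ∏ p ∈ T, (c p.1 x ^ lmE d p.1 - c p.2 x ^ lmE d p.2))
      (by
        intro i _
        fin_cases i
        · simpa using hm
        · simpa using Finset.analyticAt_fun_prod _ fun k _ => hc k
        · simpa using Finset.analyticAt_fun_prod _ fun p _ => ((hc p.1).pow _).sub ((hc p.2).pow _))
      (by
        intro i _
        fin_cases i
        · simpa using hm0
        · simpa using h1
        · simpa using h2)
    refine h3.mono fun x hx => ?_
    simpa [lmH, Fin.prod_univ_three] using hx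
  have hmon := hn _ hh hh0
  have hrel : LmRel d S T (lmH d S T m c) (fun y => m (lmTl y) * lmNF d c u y) := by
    refine ⟨m, c, u, hm, hc, hu, hu0, ?_, ?_, Eventually.of_forall fun _ => rfl,
      Eventually.of_forall fun _ => rfl⟩
    · intro k hk
      by_cases hkd : k < d
      · have : ¬ ∃ᶠ x in 𝓝 0, c k x ≠ 0 := fun h' =>
          hk (Finset.mem_filter.2 ⟨Finset.mem_range.2 hkd, h'⟩)
        exact (Filter.not_frequently.1 this).mono fun x hx => not_not.1 hx
      · exact Eventually.of_forall fun x => hcd k (by omega) x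
    · intro p hp1 hp2 hpT
      have : ¬ ∃ᶠ x in 𝓝 0, c p.1 x ^ lmE d p.1 - c p.2 x ^ lmE d p.2 ≠ 0 := fun h' =>
        hpT (Finset.mem_filter.2 ⟨Finset.mem_product.2 ⟨hp1, hp2⟩, h'⟩)
      exact (Filter.not_frequently.1 this).mono fun x hx => sub_eq_zero.1 (not_not.1 hx)
  have hG : LmMon (fun y => m (lmTl y) * lmNF d c u y) :=
    lm_lift (LmRel d S T) lmRel_pull (fun h G hr hb => lm_comb hQ hS hr hb) hmon hrel
  have hξ' : AnalyticAt ℂ ξ (lmTl (0 : Cn (n + 1))) := by simpa using hξ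
  refine LmMon.chg (lmShift ξ) (analyticAt_lmShift hξ') (lmShift_zero hξ0) ?_ (hG.congr ?_)
  · have := lmJac_lmShift (y := (0 : Cn (n + 1))) hξ'.differentiableAt
    rw [lmJac] at this
    rw [this]
    exact one_ne_zero
  · have h3 : ∀ᶠ y in 𝓝 (0 : Cn (n + 1)), DifferentiableAt ℂ ξ (lmTl y) :=
      tendsto_lmTl_zero.eventually (hξ.eventually_analyticAt.mono fun x hx => hx.differentiableAt)
    filter_upwards [h3, hnf] with y hy hy2
    have := lmJac_lmShift hy
    rw [lmJac] at this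
    rw [this, lmTl_lmShift, hy2, mul_one]

theorem lmQ_all (hn : LmAll n) (d : ℕ) : LmQ n d :=
  Nat.strong_induction_on d fun d ih => lmQ_step hn d ih

/-- the induction step on the number of variables. -/
theorem lmAll_succ (hn : LmAll n) : LmAll (n + 1) := by
  intro F hF hF0
  by_cases hF00 : F 0 ≠ 0
  · exact LmMon.base (LmBase.of_unit hF hF00)
  rw [not_not] at hF00
  obtain ⟨v, hv⟩ := Claimed.Agent.R269.SCV.exists_good_direction hF hF0
  have hv0 : v ≠ 0 := by
    rintro rfl
    apply hv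
    exact Eventually.of_forall fun t => by simpa using hF00
  have he : (Pi.single 0 1 : Cn (n + 1)) ≠ 0 := by
    intro h
    have := congrFun h 0
    simp at this
  obtain ⟨L, hL⟩ := SeparatingDual.exists_continuousLinearEquiv_apply_eq (R := ℂ) he hv0
  have hLan : ∀ y, AnalyticAt ℂ (fun y => L y) y := fun y => (L : Cn (n + 1) →L[ℂ] Cn (n + 1)).analyticAt y
  have hg : AnalyticAt ℂ (fun y => F (L y)) 0 := by
    have h1 : AnalyticAt ℂ F (L 0) := by simpa using hF
    exact h1.comp (hLan 0)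
  have hcs : ∀ t : ℂ, lmCs t (0 : Cn n) = t • (Pi.single 0 1 : Cn (n + 1)) := by
    intro t
    funext i
    refine Fin.cases ?_ (fun j => ?_) i
    · simp
    · simp
  obtain ⟨d, hd⟩ := lm_reg_of_frequently hg (by
    refine hv.mono fun t ht => ?_
    rw [hcs, map_smul, hL]
    simpa using ht)
  have hdet : ∀ y, (fderiv ℂ (fun y => L y) y).det = (L : Cn (n + 1) →L[ℂ] Cn (n + 1)).det := by
    intro y
    have h2 : HasFDerivAt (fun y => L y) (L : Cn (n + 1) →L[ℂ] Cn (n + 1)) y :=
      (L : Cn (n + 1) →L[ℂ] Cn (n + 1)).hasFDerivAt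
    rw [h2.fderiv]
  have hdet0 : (L : Cn (n + 1) →L[ℂ] Cn (n + 1)).det ≠ 0 := by
    have := L.toLinearEquiv.isUnit_det'
    exact this.ne_zero
  have h1 := lmQ_all hn d (fun _ => (L : Cn (n + 1) →L[ℂ] Cn (n + 1)).det) (fun y => F (L y))
    analyticAt_const (Frequently.of_forall fun _ => hdet0) hg hd
  refine LmMon.chg (fun y => L y) (hLan 0) (map_zero L) (by rw [hdet]; exact hdet0) (h1.congr ?_)
  refine Eventually.of_forall fun y => ?_
  rw [hdet, mul_comm]

theorem lmAll_zero : LmAll 0 := by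
  intro F hF hF0
  refine LmMon.base (LmBase.of_unit hF ?_)
  intro h0
  apply hF0
  refine Eventually.of_forall fun y => ?_
  rw [Subsingleton.elim y 0]
  simpa using h0

/-- **Local monomialisation, germ form.** -/
theorem lm_all : ∀ n, LmAll n
  | 0 => lmAll_zero
  | n + 1 => lmAll_succ (lm_all n)

end Claimed.Agent.R242
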