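/-
Row 242, package LM, file Extract: from the predicate `LmMon` to finite families of leaves.
Owner of the statements and of the glue: helper119.

LEAVES
* LM-X1 : `LmLeaf.Good.comp` (post-composition of a good leaf with an elementary map).
    chain rule `fderiv (φ ∘ σ) y = (fderiv φ (σ y)).comp (fderiv σ y)`, `ContinuousLinearMap.det` of a composition
    (`LinearMap.det_comp`); injectivity cover: the sets `A ∩ {y ∈ ball 0 r | σ y ∈ B}` (`A` in the cover of `σ`,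
    `B` in the cover of `φ`); measurable because `σ` is continuous on the open ball.
* LM-X2 : `lm_extract_base` (one leaf `σ = id`; `lm_factor`, `lm_factor_prod`; choose `r` so small that the finitely
    many "eventually" statements hold on `ball 0 r ⊆ N`; `lmJac id = 1`; cover `{univ}`).
* LM-X3 : `analyticAt_lmJac` and the set-theoretic lemmas on `lmCover`.
-/
import Claimed.Agent.R242.LM.Ind

set_option autoImplicit false

open Filter Topology Set Metric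

namespace Claimed.Agent.R242

variable {n : ℕ}

/-- LM-X3. -/
theorem analyticAt_lmJac {φ : Cn n → Cn n} {z : Cn n} (hφ : AnalyticAt ℂ φ z) :
    AnalyticAt ℂ (lmJac φ) z := by
  have h1 : AnalyticAt ℂ (fun x => fderiv ℂ φ x) z := hφ.fderiv
  have h2 : ∀ x, lmJac φ x = (Matrix.of fun a b => fderiv ℂ φ x (Pi.single b 1) a).det := by
    intro x
    rw [lmJac, ContinuousLinearMap.det, ← LinearMap.det_toMatrix']
    congr 1
  have h3 : lmJac φ = fun x => (Matrix.of fun a b => fderiv ℂ φ x (Pi.single b 1) a).det := funext h2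
  rw [h3]
  simp only [Matrix.det_apply']
  refine Finset.analyticAt_fun_sum _ fun σ _ => analyticAt_const.mul
    (Finset.analyticAt_fun_prod _ fun i _ => ?_)
  exact (((ContinuousLinearMap.proj (R := ℂ) (φ := fun _ : Fin n => ℂ) (σ i)).comp
    (ContinuousLinearMap.apply ℂ (Cn n) (Pi.single i 1))).analyticAt (fderiv ℂ φ z)).comp h1

theorem lmCover_image_comp (φ : Cn n → Cn n) (S : Set (LmLeaf n)) :
    lmCover (LmLeaf.comp φ '' S) = φ '' lmCover S := by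
  ext x
  simp only [lmCover, mem_iUnion, mem_image, exists_prop, LmLeaf.comp]
  constructor
  · rintro ⟨_, ⟨L, hL, rfl⟩, y, hy, rfl⟩
    exact ⟨L.σ y, ⟨L, hL, y, hy, rfl⟩, rfl⟩
  · rintro ⟨_, ⟨L, hL, y, hy, rfl⟩, rfl⟩
    exact ⟨_, ⟨L, hL, rfl⟩, y, hy, rfl⟩

theorem lmCover_union (S S' : Set (LmLeaf n)) : lmCover (S ∪ S') = lmCover S ∪ lmCover S' := by
  simp only [lmCover]
  exact biUnion_union _ _ _

theorem lmCover_biUnion {κ : Type*} (Θ : Finset κ) (S : κ → Set (LmLeaf n)) :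
    lmCover (⋃ τ ∈ Θ, S τ) = ⋃ τ ∈ Θ, lmCover (S τ) := by
  ext x
  simp only [lmCover, mem_iUnion, exists_prop]
  constructor
  · rintro ⟨L, ⟨τ, hτ, hL⟩, hx⟩
    exact ⟨τ, hτ, L, hL, hx⟩
  · rintro ⟨τ, hτ, L, hL, hx⟩
    exact ⟨L, ⟨τ, hτ, hL⟩, hx⟩

/-- chain rule for the Jacobian determinant. -/
theorem lmJac_comp {φ σ : Cn n → Cn n} {y : Cn n} (hφ : DifferentiableAt ℂ φ (σ y))
    (hσ : DifferentiableAt ℂ σ y) : lmJac (fun z => φ (σ z)) y = lmJac φ (σ y) * lmJac σ y := by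
  have h : fderiv ℂ (fun z => φ (σ z)) y = (fderiv ℂ φ (σ y)).comp (fderiv ℂ σ y) :=
    fderiv_comp y hφ hσ
  rw [lmJac, lmJac, lmJac, h, ContinuousLinearMap.det, ContinuousLinearMap.det,
    ContinuousLinearMap.det]
  exact LinearMap.det_comp _ _

/-- preimages under a map continuous on an open set are measurable inside the set. -/
theorem lm_measurableSet_inter_preimage {σ : Cn n → Cn n} {V B : Set (Cn n)} (hV : IsOpen V)
    (hσ : ContinuousOn σ V) (hB : MeasurableSet B) : MeasurableSet (V ∩ σ ⁻¹' B) := by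
  classical
  have h1 : Measurable (V.piecewise σ (fun _ => 0)) :=
    hσ.measurable_piecewise continuousOn_const hV.measurableSet
  have h2 : V ∩ σ ⁻¹' B = V ∩ (V.piecewise σ (fun _ => 0)) ⁻¹' B := by
    ext y
    constructor
    · rintro ⟨hy, hyB⟩
      exact ⟨hy, by rw [mem_preimage, piecewise_eq_of_mem _ _ _ hy]; exact hyB⟩
    · rintro ⟨hy, hyB⟩
      exact ⟨hy, by rw [mem_preimage, piecewise_eq_of_mem _ _ _ hy] at hyB; exact hyB⟩
  rw [h2]
  exact hV.measurableSet.inter (h1 hB)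

/-- LM-X1. -/
theorem LmLeaf.Good.comp {ι : Type} {G : ι → Cn n → ℂ} {F₂ : Cn n → ℂ} {N N' : Set (Cn n)}
    {φ : Cn n → Cn n} {J : Cn n → ℂ} (hφ : AnalyticOnNhd ℂ φ N') (hmap : MapsTo φ N' N)
    (hJ : ∀ y ∈ N', lmJac φ y = J y) (hinj : LmInjCov φ J N') {L : LmLeaf n}
    (hL : L.Good (fun i y => G i (φ y)) (fun y => F₂ (φ y) * J y) N') : (L.comp φ).Good G F₂ N := by
  obtain ⟨hr, hσ, hσm, hG, hF, hc⟩ := hL
  have hjac : ∀ y ∈ ball (0 : Cn n) L.r,
      lmJac (fun z => φ (L.σ z)) y = J (L.σ y) * lmJac L.σ y := by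
    intro y hy
    rw [lmJac_comp (hφ _ (hσm hy)).differentiableAt (hσ y hy).differentiableAt, hJ _ (hσm hy)]
  refine ⟨hr, fun y hy => (hφ _ (hσm hy)).comp (hσ y hy), fun y hy => hmap (hσm hy), hG, ?_, ?_⟩
  · obtain ⟨e, u, hu, hu0, he⟩ := hF
    refine ⟨e, u, hu, hu0, fun y hy => ?_⟩
    rw [← he y hy]
    show F₂ (φ (L.σ y)) * lmJac (fun z => φ (L.σ z)) y = _
    rw [hjac y hy]
    exact (mul_assoc _ _ _).symm
  · obtain ⟨𝒜, hAf, hA, hAc⟩ := hc
    obtain ⟨ℬ, hBf, hB, hBc⟩ := hinj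
    refine ⟨image2 (fun A B => A ∩ (ball 0 L.r ∩ L.σ ⁻¹' B)) 𝒜 ℬ, hAf.image2 _ hBf, ?_, ?_⟩
    · rintro _ ⟨A, hAm, B, hBm, rfl⟩
      refine ⟨(hA A hAm).1.inter
        (lm_measurableSet_inter_preimage isOpen_ball hσ.continuousOn (hB B hBm).1), ?_⟩
      intro y hy z hz hyz
      exact (hA A hAm).2 hy.1 hz.1 ((hB B hBm).2 hy.2.2 hz.2.2 hyz)
    · rintro y ⟨hy, hy0⟩
      have h0 : J (L.σ y) * lmJac L.σ y ≠ 0 := by
        rw [← hjac y hy]; exact hy0
      obtain ⟨A, hAm, hyA⟩ := hAc ⟨hy, right_ne_zero_of_mul h0⟩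
      obtain ⟨B, hBm, hyB⟩ := hBc ⟨hσm hy, left_ne_zero_of_mul h0⟩
      exact ⟨_, ⟨A, hAm, B, hBm, rfl⟩, hyA, hy, hyB⟩

theorem lmJac_id (y : Cn n) : lmJac (fun z : Cn n => z) y = 1 := by
  rw [lmJac, fderiv_fun_id, ContinuousLinearMap.det]
  exact LinearMap.det_id

/-- a germ `unit * monomial` is `unit * monomial` on all small polydiscs. -/
theorem LmBase.eventually_monoOn {f : Cn n → ℂ} (h : LmBase f) :
    ∃ (e : Fin n → ℕ) (u : Cn n → ℂ), ∀ᶠ y in 𝓝 (0 : Cn n),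
      AnalyticAt ℂ u y ∧ u y ≠ 0 ∧ f y = u y * lmMono e y := by
  obtain ⟨e, u, hu, hu0, he⟩ := h
  exact ⟨e, u, hu.eventually_analyticAt.and ((hu.continuousAt.eventually_ne hu0).and he)⟩

/-- LM-X2. -/
theorem lm_extract_base {ι : Type} [Fintype ι] {F : Cn n → ℂ} (hb : LmBase F) {G : ι → Cn n → ℂ}
    {F₂ : Cn n → ℂ} (hG : ∀ i, AnalyticAt ℂ (G i) 0) (hF₂ : AnalyticAt ℂ F₂ 0)
    (hF : ∀ᶠ y in 𝓝 0, F y = (∏ i, G i y) * F₂ y) {N : Set (Cn n)} (hN : N ∈ 𝓝 (0 : Cn n)) :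
    ∃ S : Set (LmLeaf n), S.Finite ∧ (∀ L ∈ S, L.Good G F₂ N) ∧ lmCover S ∈ 𝓝 (0 : Cn n) := by
  have h1 : LmBase (fun y => (∏ i, G i y) * F₂ y) := hb.congr hF
  have hP : AnalyticAt ℂ (fun y => ∏ i, G i y) 0 := Finset.analyticAt_fun_prod _ fun i _ => hG i
  obtain ⟨h2, h3⟩ := lm_factor hP hF₂ h1
  have h4 : ∀ i, LmBase (G i) := fun i =>
    lm_factor_prod Finset.univ G (fun i _ => hG i) h2 i (Finset.mem_univ i)
  choose e u hu using fun i => (h4 i).eventually_monoOn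
  obtain ⟨e₂, u₂, hu₂⟩ := h3.eventually_monoOn
  have hall : ∀ᶠ y in 𝓝 (0 : Cn n), (∀ i, AnalyticAt ℂ (u i) y ∧ u i y ≠ 0 ∧
      G i y = u i y * lmMono (e i) y) ∧ (AnalyticAt ℂ u₂ y ∧ u₂ y ≠ 0 ∧
      F₂ y = u₂ y * lmMono e₂ y) ∧ y ∈ N :=
    (eventually_all.2 hu).and (hu₂.and hN)
  obtain ⟨r, hr, hball⟩ := Metric.eventually_nhds_iff_ball.1 hall
  refine ⟨{⟨r, fun z => z⟩}, finite_singleton _, ?_, ?_⟩
  · rintro L rfl
    refine ⟨hr, fun y _ => analyticAt_id, fun y hy => (hball y hy).2.2, fun i => ?_, ?_, ?_⟩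
    · exact ⟨e i, u i, fun y hy => ((hball y hy).1 i).1, fun y hy => ((hball y hy).1 i).2.1,
        fun y hy => ((hball y hy).1 i).2.2⟩
    · refine ⟨e₂, u₂, fun y hy => (hball y hy).2.1.1, fun y hy => (hball y hy).2.1.2.1,
        fun y hy => ?_⟩
      show F₂ y * lmJac (fun z : Cn n => z) y = _
      rw [lmJac_id, mul_one]
      exact (hball y hy).2.1.2.2
    · exact ⟨{univ}, finite_singleton _, by
        rintro A rfl
        exact ⟨MeasurableSet.univ, fun a _ b _ hab => hab⟩, fun y _ => by simp⟩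
  · have : lmCover ({⟨r, fun z => z⟩} : Set (LmLeaf n)) = closedBall 0 (r / 2) := by
      simp [lmCover]
    rw [this]
    exact closedBall_mem_nhds _ (by positivity)

/-- glue: **extraction of a finite family of leaves**. -/
theorem lm_extract {ι : Type} [Fintype ι] {F : Cn n → ℂ} (h : LmMon F) :
    ∀ (G : ι → Cn n → ℂ) (F₂ : Cn n → ℂ), (∀ i, AnalyticAt ℂ (G i) 0) → AnalyticAt ℂ F₂ 0 →
      (∀ᶠ y in 𝓝 0, F y = (∏ i, G i y) * F₂ y) → ∀ N ∈ 𝓝 (0 : Cn n),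
      ∃ S : Set (LmLeaf n), S.Finite ∧ (∀ L ∈ S, L.Good G F₂ N) ∧ lmCover S ∈ 𝓝 (0 : Cn n) := by
  induction h with
  | base hb =>
    intro G F₂ hG hF₂ hF N hN
    exact lm_extract_base hb hG hF₂ hF hN
  | chg φ hφ h0 hd _ ih =>
    intro G F₂ hG hF₂ hF N hN
    obtain ⟨N', hN', hN'm, hN'a, hN'i, hN'N⟩ := lm_chg_nhd hφ h0 hd hN
    have ht : Tendsto φ (𝓝 0) (𝓝 0) := by
      have := hφ.continuousAt.tendsto
      rwa [h0] at this
    obtain ⟨S, hSf, hSg, hSc⟩ := ih (fun i y => G i (φ y)) (fun y => F₂ (φ y) * lmJac φ y)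
      (fun i => by
        have h1 : AnalyticAt ℂ (G i) (φ 0) := by rw [h0]; exact hG i
        exact h1.comp hφ)
      (by
        have h1 : AnalyticAt ℂ F₂ (φ 0) := by rw [h0]; exact hF₂
        exact (h1.comp hφ).mul (analyticAt_lmJac hφ))
      (by
        filter_upwards [ht.eventually hF] with y hy
        rw [hy, lmJac, mul_assoc]) N' hN'
    refine ⟨LmLeaf.comp φ '' S, hSf.image _, ?_, ?_⟩
    · rintro _ ⟨L, hL, rfl⟩
      refine (hSg L hL).comp hN'a hN'N (fun _ _ => rfl) ⟨{N'}, finite_singleton _, ?_, ?_⟩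
      · rintro A rfl
        exact ⟨hN'm, hN'i⟩
      · intro y hy
        simpa using hy.1
    · rw [lmCover_image_comp]
      exact lm_cover_chg hφ h0 hd hSc
  | @blow F' i j hij _ _ ih1 ih2 =>
    intro G F₂ hG hF₂ hF N hN
    have key : ∀ (a b : Fin n) (_ : a ≠ b) (τ : ℂ),
        (∀ (G : ι → Cn n → ℂ) (F₂ : Cn n → ℂ), (∀ i, AnalyticAt ℂ (G i) 0) → AnalyticAt ℂ F₂ 0 →
          (∀ᶠ y in 𝓝 0, F' (lmBl a b τ y) * y b = (∏ i, G i y) * F₂ y) → ∀ N ∈ 𝓝 (0 : Cn n),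
          ∃ S : Set (LmLeaf n), S.Finite ∧ (∀ L ∈ S, L.Good G F₂ N) ∧ lmCover S ∈ 𝓝 (0 : Cn n)) →
        ∃ S : Set (LmLeaf n), S.Finite ∧ (∀ L ∈ S, (L.comp (lmBl a b τ)).Good G F₂ N) ∧
          lmCover S ∈ 𝓝 (0 : Cn n) := by
      intro a b hab τ ih
      obtain ⟨S, hSf, hSg, hSc⟩ := ih (fun i y => G i (lmBl a b τ y)) (fun y => F₂ (lmBl a b τ y) * y b)
        (fun i => by
          have h1 : AnalyticAt ℂ (G i) (lmBl a b τ 0) := by rw [lmBl_zero]; exact hG i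
          exact h1.comp (analyticAt_lmBl a b τ 0))
        (by
          have h1 : AnalyticAt ℂ F₂ (lmBl a b τ 0) := by rw [lmBl_zero]; exact hF₂
          exact (h1.comp (analyticAt_lmBl a b τ 0)).mul (analyticAt_coord b 0))
        (by
          filter_upwards [(tendsto_lmBl_zero a b τ).eventually hF] with y hy
          rw [hy, mul_assoc]) (lmBl a b τ ⁻¹' N) ((tendsto_lmBl_zero a b τ) hN)
      refine ⟨S, hSf, fun L hL => ?_, hSc⟩
      refine (hSg L hL).comp (fun y _ => analyticAt_lmBl a b τ y) (fun y hy => hy)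
        (fun y _ => lmJac_lmBl hab τ y) ⟨{{y | y b ≠ 0}}, finite_singleton _, ?_, ?_⟩
      · rintro A rfl
        refine ⟨?_, lmBl_injOn hab τ⟩
        exact (measurableSet_singleton (0 : ℂ)).compl.preimage (measurable_pi_apply b)
      · intro y hy
        simpa using hy.2
    choose S hSf hSg hSc using fun τ => key i j hij τ (ih1 τ)
    obtain ⟨S', hSf', hSg', hSc'⟩ := key j i hij.symm 0 ih2
    obtain ⟨Θ, hΘ⟩ := lm_cover_blow hij hSc hSc'
    refine ⟨(⋃ τ ∈ Θ, LmLeaf.comp (lmBl i j τ) '' S τ) ∪ LmLeaf.comp (lmBl j i 0) '' S', ?_, ?_, ?_⟩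
    · exact (Θ.finite_toSet.biUnion fun τ _ => (hSf τ).image _).union (hSf'.image _)
    · rintro L (hL | ⟨L, hL, rfl⟩)
      · simp only [mem_iUnion, exists_prop] at hL
        obtain ⟨τ, -, L, hL, rfl⟩ := hL
        exact hSg τ L hL
      · exact hSg' L hL
    · rw [lmCover_union, lmCover_biUnion, lmCover_image_comp]
      simp only [lmCover_image_comp]
      exact hΘ
  | pow k hk _ ih =>
    intro G F₂ hG hF₂ hF N hN
    obtain ⟨S, hSf, hSg, hSc⟩ := ih (fun i y => G i (lmPw k y)) (fun y => F₂ (lmPw k y) * lmPwJ k y)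
      (fun i => by
        have h1 : AnalyticAt ℂ (G i) (lmPw k 0) := by rw [lmPw_zero hk]; exact hG i
        exact h1.comp (analyticAt_lmPw k 0))
      (by
        have h1 : AnalyticAt ℂ F₂ (lmPw k 0) := by rw [lmPw_zero hk]; exact hF₂
        exact (h1.comp (analyticAt_lmPw k 0)).mul (analyticAt_lmPwJ k 0))
      (by
        filter_upwards [(tendsto_lmPw_zero hk).eventually hF] with y hy
        rw [hy, mul_assoc]) (lmPw k ⁻¹' N) ((tendsto_lmPw_zero hk) hN)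
    refine ⟨LmLeaf.comp (lmPw k) '' S, hSf.image _, ?_, ?_⟩
    · rintro _ ⟨L, hL, rfl⟩
      obtain ⟨𝒮, h1, h2, h3⟩ := lmPw_injCov hk (lmPwJ k)
      exact (hSg L hL).comp (fun y _ => analyticAt_lmPw k y) (fun y hy => hy)
        (fun y _ => lmJac_lmPw k y) ⟨𝒮, h1, h2, fun y hy => h3 ⟨mem_univ _, hy.2⟩⟩
    · rw [lmCover_image_comp]
      exact lm_cover_pow hk hSc

end Claimed.Agent.R242
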