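/-
Row 242 (S0480), package LM: PUBLIC INTERFACE.     Owner: helper119.

**Local monomialisation (analytic category, power substitutions allowed).**

`lm_main`: let `g i` (`i` in a finite type) be analytic at `a ∈ Cn n`, none of them identically `0` near `a`, and let `N` be
a neighbourhood of `a`.  Then there is a FINITE set `S` of leaves `L = (L.r, L.σ)` such that for every `L ∈ S`, with
`V = Metric.ball 0 L.r` (a polydisc centred at `0`, sup norm):
* `0 < L.r`, `L.σ` is analytic on `V` and maps `V` into `N`;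
* every `g i ∘ L.σ` is `unit * monomial` on ALL of `V`  (`LmMonoOn`: `∃ e u`, `u` analytic and nowhere `0` on `V`,
  `g i (L.σ y) = u y * ∏ j, y j ^ e j` for `y ∈ V`; monomials in the coordinates `y` themselves);
* the Jacobian determinant `lmJac L.σ y = (fderiv ℂ L.σ y).det` is `unit * monomial` on `V`;
* `LmInjCov`: `{y ∈ V | lmJac L.σ y ≠ 0}` (which contains `V` minus the coordinate hyperplanes) is covered by finitely many
  measurable sets on each of which `L.σ` is injective;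
and the compact pieces cover a neighbourhood of `a`:  `lmCover S = ⋃ L ∈ S, L.σ '' closedBall 0 (L.r / 2) ∈ 𝓝 a`.

Definitions: `LM/Defs.lean` (`lmMono`, `LmMonoOn`, `LmInjCov`, `LmLeaf`, `lmJac`, `lmCover`).
-/
import Claimed.Agent.R242.LM.Extract

set_option autoImplicit false

open Filter Topology Set Metric

namespace Claimed.Agent.R242

variable {n : ℕ}

/-- What a leaf of `lm_main` satisfies. -/
def LmLeaf.IsGood {ι : Type} (L : LmLeaf n) (g : ι → Cn n → ℂ) (N : Set (Cn n)) : Prop :=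
  0 < L.r ∧ AnalyticOnNhd ℂ L.σ (ball 0 L.r) ∧ MapsTo L.σ (ball 0 L.r) N ∧
  (∀ i, LmMonoOn (fun y => g i (L.σ y)) (ball 0 L.r)) ∧
  LmMonoOn (lmJac L.σ) (ball 0 L.r) ∧
  LmInjCov L.σ (lmJac L.σ) (ball 0 L.r)

/-- **Local monomialisation.** -/
theorem lm_main {ι : Type} [Fintype ι] {a : Cn n} (g : ι → Cn n → ℂ) (hg : ∀ i, AnalyticAt ℂ (g i) a)
    (hg0 : ∀ i, ∃ᶠ z in 𝓝 a, g i z ≠ 0) {N : Set (Cn n)} (hN : N ∈ 𝓝 a) :
    ∃ S : Set (LmLeaf n), S.Finite ∧ (∀ L ∈ S, L.IsGood g N) ∧ lmCover S ∈ 𝓝 a := by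
  have htr : Tendsto (fun y : Cn n => a + y) (𝓝 0) (𝓝 a) := by
    have : Tendsto (fun y : Cn n => a + y) (𝓝 0) (𝓝 (a + 0)) :=
      (continuous_const.add continuous_id).tendsto 0
    rwa [add_zero] at this
  have han : ∀ y : Cn n, AnalyticAt ℂ (fun y : Cn n => a + y) y := fun y =>
    analyticAt_const.add analyticAt_id
  have hG : ∀ i, AnalyticAt ℂ (fun y => g i (a + y)) 0 := by
    intro i
    have h1 : AnalyticAt ℂ (g i) (a + 0) := by rw [add_zero]; exact hg i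
    exact h1.comp (han 0)
  have hG0 : ∀ i, ∃ᶠ y in 𝓝 0, g i (a + y) ≠ 0 := by
    intro i
    have h1 : Tendsto (fun z : Cn n => z - a) (𝓝 a) (𝓝 0) := by
      have : Tendsto (fun z : Cn n => z - a) (𝓝 a) (𝓝 (a - a)) :=
        (continuous_id.sub continuous_const).tendsto a
      rwa [sub_self] at this
    intro hcon
    apply hg0 i
    filter_upwards [h1.eventually hcon] with z hz
    simpa using hz
  have hmon : LmMon (fun y => ∏ i, g i (a + y)) :=
    lm_all n _ (Finset.analyticAt_fun_prod _ fun i _ => hG i)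
      (lm_prod_frequently_ne Finset.univ (fun i y => g i (a + y)) (fun i _ => hG i) fun i _ => hG0 i)
  obtain ⟨S, hSf, hSg, hSc⟩ := lm_extract hmon (fun i y => g i (a + y)) (fun _ => 1 * 1) hG
    analyticAt_const (Eventually.of_forall fun y => by simp) ((fun y : Cn n => a + y) ⁻¹' N) (htr hN)
  refine ⟨LmLeaf.comp (fun y => a + y) '' S, hSf.image _, ?_, ?_⟩
  · rintro _ ⟨L, hL, rfl⟩
    have h1 : (L.comp (fun y => a + y)).Good g (fun _ => 1) N := by
      refine LmLeaf.Good.comp (J := fun _ => 1) (N' := (fun y : Cn n => a + y) ⁻¹' N)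
        (fun y _ => han y) (fun y hy => hy) (fun y _ => ?_) ⟨{univ}, finite_singleton _, ?_, ?_⟩ (hSg L hL)
      · have h2 : HasFDerivAt (fun y : Cn n => a + y) (ContinuousLinearMap.id ℂ (Cn n)) y :=
          (hasFDerivAt_id y).const_add a
        rw [lmJac, h2.fderiv]
        simp [ContinuousLinearMap.det]
      · rintro A rfl
        exact ⟨MeasurableSet.univ, fun x _ y _ hxy => add_left_cancel hxy⟩
      · intro y _
        simp
    obtain ⟨h2, h3, h4, h5, h6, h7⟩ := h1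
    refine ⟨h2, h3, h4, h5, ?_, h7⟩
    simpa using h6
  · rw [lmCover_image_comp]
    have h1 : (fun y : Cn n => a + y) '' lmCover S = (fun z : Cn n => z - a) ⁻¹' lmCover S := by
      ext z
      simp only [mem_image, mem_preimage]
      constructor
      · rintro ⟨y, hy, rfl⟩
        simpa using hy
      · intro hz
        exact ⟨z - a, hz, by simp⟩
    rw [h1]
    have h2 : Tendsto (fun z : Cn n => z - a) (𝓝 a) (𝓝 0) := by
      have : Tendsto (fun z : Cn n => z - a) (𝓝 a) (𝓝 (a - a)) :=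
        (continuous_id.sub continuous_const).tendsto a
      rwa [sub_self] at this
    exact h2 hSc

/-- enumeration of a finite set. -/
theorem lm_exists_fin_range {α : Type*} {S : Set α} (hS : S.Finite) :
    ∃ (N : ℕ) (f : Fin N → α), ∀ x, x ∈ S ↔ ∃ i, f i = x := by
  classical
  have := hS.to_subtype
  obtain ⟨N, ⟨e⟩⟩ := Finite.exists_equiv_fin S
  refine ⟨N, fun i => (e.symm i : α), fun x => ⟨fun hx => ⟨e ⟨x, hx⟩, by simp⟩, ?_⟩⟩
  rintro ⟨i, rfl⟩
  exact (e.symm i).2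

/-- **Local monomialisation, `Fin`-indexed form** (the conclusion is the list of the fields of `CellFam`;
`(fderiv ℂ (σ l) y).det` is `cjac (σ l) y` by definition). -/
theorem lm_main_fin {ι : Type} [Fintype ι] {a : Cn n} (g : ι → Cn n → ℂ) (hg : ∀ i, AnalyticAt ℂ (g i) a)
    (hg0 : ∀ i, ∃ᶠ z in 𝓝 a, g i z ≠ 0) {N : Set (Cn n)} (hN : N ∈ 𝓝 a) :
    ∃ (nl : ℕ) (r : Fin nl → ℝ) (σ : Fin nl → Cn n → Cn n) (k : Fin nl → Fin n → ℕ)
      (o : Fin nl → Fin n → ι → ℕ) (uj : Fin nl → Cn n → ℂ) (us : Fin nl → ι → Cn n → ℂ),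
      (∀ l, 0 < r l) ∧ (∀ l, DifferentiableOn ℂ (σ l) (ball 0 (r l))) ∧
      (∀ l, MapsTo (σ l) (ball 0 (r l)) N) ∧
      (∀ l, DifferentiableOn ℂ (uj l) (ball 0 (r l))) ∧
      (∀ l, ∀ y ∈ ball (0 : Cn n) (r l), uj l y ≠ 0) ∧
      (∀ l, ∀ y ∈ ball (0 : Cn n) (r l), (fderiv ℂ (σ l) y).det = uj l y * ∏ j, y j ^ k l j) ∧
      (∀ l i, DifferentiableOn ℂ (us l i) (ball 0 (r l))) ∧
      (∀ l i, ∀ y ∈ ball (0 : Cn n) (r l), us l i y ≠ 0) ∧
      (∀ l i, ∀ y ∈ ball (0 : Cn n) (r l), g i (σ l y) = us l i y * ∏ j, y j ^ o l j i) ∧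
      (∀ l, ∃ (M : ℕ) (A : Fin M → Set (Cn n)), (∀ i, MeasurableSet (A i)) ∧ (∀ i, InjOn (σ l) (A i)) ∧
        {y | y ∈ ball (0 : Cn n) (r l) ∧ (fderiv ℂ (σ l) y).det ≠ 0} ⊆ ⋃ i, A i) ∧
      (⋃ l, σ l '' closedBall 0 (r l / 2)) ∈ 𝓝 a := by
  obtain ⟨S, hSf, hSg, hSc⟩ := lm_main g hg hg0 hN
  obtain ⟨nl, L, hL⟩ := lm_exists_fin_range hSf
  have hgood : ∀ l, (L l).IsGood g N := fun l => hSg _ ((hL _).2 ⟨l, rfl⟩)
  have h4 : ∀ l i, LmMonoOn (fun y => g i ((L l).σ y)) (ball 0 (L l).r) := fun l i => (hgood l).2.2.2.1 i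
  have h5 : ∀ l, LmMonoOn (lmJac (L l).σ) (ball 0 (L l).r) := fun l => (hgood l).2.2.2.2.1
  choose o us hus1 hus2 hus3 using h4
  choose k uj huj1 huj2 huj3 using h5
  refine ⟨nl, fun l => (L l).r, fun l => (L l).σ, k, fun l j i => o l i j, uj, us,
    fun l => (hgood l).1, fun l => (hgood l).2.1.differentiableOn, fun l => (hgood l).2.2.1,
    fun l => (huj1 l).differentiableOn, huj2, fun l y hy => huj3 l y hy,
    fun l i => (hus1 l i).differentiableOn, hus2, fun l i y hy => hus3 l i y hy, fun l => ?_, ?_⟩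
  · obtain ⟨𝒮, h𝒮f, h𝒮1, h𝒮2⟩ := (hgood l).2.2.2.2.2
    obtain ⟨M, A, hA⟩ := lm_exists_fin_range h𝒮f
    refine ⟨M, A, fun i => (h𝒮1 _ ((hA _).2 ⟨i, rfl⟩)).1, fun i => (h𝒮1 _ ((hA _).2 ⟨i, rfl⟩)).2, ?_⟩
    intro y hy
    obtain ⟨B, hB, hyB⟩ := h𝒮2 hy
    obtain ⟨i, rfl⟩ := (hA B).1 hB
    exact mem_iUnion.2 ⟨i, hyB⟩
  · convert hSc using 1
    ext x
    simp only [lmCover, mem_iUnion, exists_prop]
    constructor
    · rintro ⟨l, hx⟩
      exact ⟨L l, (hL _).2 ⟨l, rfl⟩, hx⟩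
    · rintro ⟨L', hL', hx⟩
      obtain ⟨l, rfl⟩ := (hL L').1 hL'
      exact ⟨l, hx⟩

end Claimed.Agent.R242
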